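import Vale.Agent.P262.H889.JC6

/-!
[J-C], part 7: the canonical `q = ⟨P⁻¹ ∇b, ∇b⟩`, `P = -D²w`.
-/

open MeasureTheory ProbabilityTheory Set Filter Topology
open scoped RealInnerProductSpace ContDiff

namespace Vale.Agent.P262.JC

variable {E : Type*} [NormedAddCommGroup E] [NormedSpace ℝ E]

theorem two_le_infty : (2 : WithTop ℕ∞) ≤ ∞ := by
  exact WithTop.coe_le_coe.2 (le_top : (2 : ℕ∞) ≤ ⊤)

/-- `P = -D²w` as a map from `E` to its dual -/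
noncomputable def Pm (w : E → ℝ) (x : E) : E →L[ℝ] (E →L[ℝ] ℝ) := -fderiv ℝ (fderiv ℝ w) x

/-- `P⁻¹ ∇b` -/
noncomputable def Vf (w b : E → ℝ) (x : E) : E := (Pm w x).inverse (fderiv ℝ b x)

/-- `⟨P⁻¹ ∇b, ∇b⟩` -/
noncomputable def qf (w b : E → ℝ) (x : E) : ℝ := fderiv ℝ b x (Vf w b x)

variable [FiniteDimensional ℝ E]

/-- the equivalence -/
theorem exists_equiv {w : E → ℝ} {δ : ℝ} (hδ : 0 < δ)
    (hc : ∀ x η, fderiv ℝ (fderiv ℝ w) x η η ≤ -(δ * ‖η‖ ^ 2)) (x : E) :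
    ∃ e : E ≃L[ℝ] (E →L[ℝ] ℝ), (e : E →L[ℝ] (E →L[ℝ] ℝ)) = Pm w x := by
  have hinj : Function.Injective (Pm w x : E →ₗ[ℝ] (E →L[ℝ] ℝ)) := by
    rw [← LinearMap.ker_eq_bot, LinearMap.ker_eq_bot']
    intro v hv
    have h1 : Pm w x v v = 0 := by
      have : Pm w x v = 0 := hv
      rw [this]; rfl
    have h2 := hc x v
    have h3 : fderiv ℝ (fderiv ℝ w) x v v = 0 := by
      have : Pm w x v v = -fderiv ℝ (fderiv ℝ w) x v v := rfl
      rw [this] at h1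
      linarith
    rw [h3] at h2
    have h4 : ‖v‖ ^ 2 = 0 := by
      have : 0 ≤ ‖v‖ ^ 2 := sq_nonneg _
      nlinarith
    simpa using h4
  have hfr : Module.finrank ℝ E = Module.finrank ℝ (E →L[ℝ] ℝ) := by
    have h1 : Module.finrank ℝ (E →L[ℝ] ℝ) = Module.finrank ℝ (E →ₗ[ℝ] ℝ) :=
      LinearEquiv.finrank_eq LinearMap.toContinuousLinearMap.symm
    rw [h1, Module.finrank_linearMap]
    simp
  let e0 : E ≃ₗ[ℝ] (E →L[ℝ] ℝ) :=
    LinearEquiv.ofInjectiveOfFinrankEq (Pm w x : E →ₗ[ℝ] (E →L[ℝ] ℝ)) hinj hfr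
  refine ⟨e0.toContinuousLinearEquiv, ?_⟩
  ext v u
  rfl

theorem Pm_Vf {w b : E → ℝ} {δ : ℝ} (hδ : 0 < δ)
    (hc : ∀ x η, fderiv ℝ (fderiv ℝ w) x η η ≤ -(δ * ‖η‖ ^ 2)) (x : E) :
    Pm w x (Vf w b x) = fderiv ℝ b x := by
  obtain ⟨e, he⟩ := exists_equiv hδ hc x
  rw [Vf, ← he, ContinuousLinearMap.inverse_equiv]
  exact e.apply_symm_apply _

theorem Vf_contDiff {w b : E → ℝ} {δ : ℝ} (hδ : 0 < δ) (hw : ContDiff ℝ ∞ w)
    (hb : ContDiff ℝ ∞ b)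
    (hc : ∀ x η, fderiv ℝ (fderiv ℝ w) x η η ≤ -(δ * ‖η‖ ^ 2)) : ContDiff ℝ ∞ (Vf w b) := by
  have hP : ContDiff ℝ ∞ (Pm w) := by
    have h1 : ContDiff ℝ ∞ (fderiv ℝ w) := hw.fderiv_right (by simp)
    exact (h1.fderiv_right (by simp)).neg
  have hb1 : ContDiff ℝ ∞ (fderiv ℝ b) := hb.fderiv_right (by simp)
  have hI : ContDiff ℝ ∞ (fun x => (Pm w x).inverse) := by
    rw [contDiff_iff_contDiffAt]
    intro x
    obtain ⟨e, he⟩ := exists_equiv hδ hc x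
    have h2 : ContDiffAt ℝ ∞ ContinuousLinearMap.inverse (Pm w x) := by
      rw [← he]; exact contDiffAt_map_inverse e
    exact h2.comp x hP.contDiffAt
  exact hI.clm_apply hb1

theorem qf_contDiff {w b : E → ℝ} {δ : ℝ} (hδ : 0 < δ) (hw : ContDiff ℝ ∞ w)
    (hb : ContDiff ℝ ∞ b)
    (hc : ∀ x η, fderiv ℝ (fderiv ℝ w) x η η ≤ -(δ * ‖η‖ ^ 2)) : ContDiff ℝ ∞ (qf w b) := by
  have hb1 : ContDiff ℝ ∞ (fderiv ℝ b) := hb.fderiv_right (by simp)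
  exact hb1.clm_apply (Vf_contDiff hδ hw hb hc)

omit [FiniteDimensional ℝ E] in
theorem Pm_symm {w : E → ℝ} (hw : ContDiff ℝ ∞ w) (x v u : E) : Pm w x v u = Pm w x u v := by
  have h : IsSymmSndFDerivAt ℝ w x :=
    (hw.contDiffAt (x := x)).isSymmSndFDerivAt (by simp [two_le_infty])
  show -fderiv ℝ (fderiv ℝ w) x v u = -fderiv ℝ (fderiv ℝ w) x u v
  rw [h.eq v u]

theorem qf_cs {w b : E → ℝ} {δ : ℝ} (hδ : 0 < δ) (hw : ContDiff ℝ ∞ w)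
    (hc : ∀ x η, fderiv ℝ (fderiv ℝ w) x η η ≤ -(δ * ‖η‖ ^ 2)) (x η : E) :
    0 ≤ qf w b x ∧ (fderiv ℝ b x η) ^ 2 ≤ qf w b x * (-(fderiv ℝ (fderiv ℝ w) x η η)) := by
  have hpos : ∀ v, 0 ≤ Pm w x v v := fun v => by
    have h1 := hc x v
    have h2 : 0 ≤ δ * ‖v‖ ^ 2 := by positivity
    show 0 ≤ -fderiv ℝ (fderiv ℝ w) x v v
    linarith
  have e1 : fderiv ℝ b x η = Pm w x (Vf w b x) η := by rw [Pm_Vf hδ hc]
  have e2 : qf w b x = Pm w x (Vf w b x) (Vf w b x) := by rw [Pm_Vf hδ hc]; rfl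
  refine ⟨by rw [e2]; exact hpos _, ?_⟩
  rw [e1, e2]
  show Pm w x (Vf w b x) η ^ 2 ≤ Pm w x (Vf w b x) (Vf w b x) * Pm w x η η
  set v := Vf w b x
  -- discriminant
  have hd : ∀ s : ℝ, 0 ≤ Pm w x η η * (s * s) + (2 * Pm w x v η) * s + Pm w x v v := by
    intro s
    have h1 := hpos (v + s • η)
    have h2 : Pm w x (v + s • η) (v + s • η)
        = Pm w x η η * (s * s) + (2 * Pm w x v η) * s + Pm w x v v := by
      simp only [map_add, map_smul, add_apply, smul_apply,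
        smul_eq_mul]
      rw [Pm_symm hw x η v]
      ring
    rw [h2] at h1
    exact h1
  have h3 := discrim_le_zero hd
  unfold discrim at h3
  nlinarith

omit [FiniteDimensional ℝ E] in
theorem qf_support {w b : E → ℝ} (hcb : HasCompactSupport b) : HasCompactSupport (qf w b) := by
  refine (hcb.fderiv ℝ).mono' ?_
  intro x hx
  refine subset_tsupport _ ?_
  intro h0
  refine hx ?_
  show fderiv ℝ b x (Vf w b x) = 0
  rw [h0]; rfl

/-- the canonical data -/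
theorem dat_canonical {k : ℕ} {w b : EuclideanSpace ℝ (Fin k) → ℝ} {δ : ℝ} (hδ : 0 < δ)
    (hw : ContDiff ℝ ∞ w) (hb : ContDiff ℝ ∞ b) (hcb : HasCompactSupport b)
    (hc : ∀ x η, fderiv ℝ (fderiv ℝ w) x η η ≤ -(δ * ‖η‖ ^ 2)) : Dat w b (qf w b) δ where
  hw := hw.of_le two_le_infty
  hb := hb.of_le two_le_infty
  hq := (qf_contDiff hδ hw hb hc).of_le two_le_infty
  cb := hcb
  cq := qf_support hcb
  δ0 := hδ
  conc := hc
  q0 := fun x => (qf_cs (b := b) hδ hw hc x 0).1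
  cs := fun x η => (qf_cs hδ hw hc x η).2

end Vale.Agent.P262.JC
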