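import Vale.Agent.P262.H889.Phi

/-!
The heat semigroup of a C^2 function with bounded derivatives: `F t x = int f (x + sqrt t y) dgam`.
-/

open MeasureTheory ProbabilityTheory Set Filter Topology

namespace Vale.Agent.P262.Ehr

theorem gam_integral (g : ℝ → ℝ) : ∫ y, g y ∂gam = ∫ y, ph y * g y := by
  rw [integral_gaussianReal_eq_integral_smul one_ne_zero]
  simp [ph_eq]

theorem gam_integrable_abs : Integrable (fun y : ℝ => |y|) gam := by
  have h : Integrable (fun y : ℝ => y) gam :=
    (memLp_id_gaussianReal 1).integrable le_rfl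
  exact h.abs

theorem integrable_of_bdd {μ : Measure ℝ} [IsProbabilityMeasure μ] {g : ℝ → ℝ} (hg : Continuous g) {C : ℝ}
    (hC : ∀ y, |g y| ≤ C) : Integrable g μ :=
  Integrable.of_bound hg.aestronglyMeasurable C (Eventually.of_forall hC)

theorem ph_tendsto_atTop : Tendsto ph atTop (𝓝 0) := by
  have h : Tendsto (fun x : ℝ => x⁻¹) atTop (𝓝 0) := tendsto_inv_atTop_zero
  refine squeeze_zero' (Eventually.of_forall fun x => (ph_pos x).le) ?_ h
  filter_upwards [eventually_gt_atTop (0 : ℝ)] with x hx
  have := abs_mul_ph_le x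
  rw [abs_of_pos hx] at this
  rw [← one_div, le_div_iff₀ hx]; linarith

theorem ph_neg (x : ℝ) : ph (-x) = ph x := by simp [ph]

theorem ph_tendsto_atBot : Tendsto ph atBot (𝓝 0) := by
  have := ph_tendsto_atTop.comp tendsto_neg_atBot_atTop
  refine this.congr fun x => ?_
  simp [ph_neg]

/-- Gaussian integration by parts -/
theorem ibp {g g' : ℝ → ℝ} (hg : ∀ x, HasDerivAt g (g' x) x) (hg'c : Continuous g') {C D : ℝ}
    (hC : ∀ x, |g x| ≤ C) (hD : ∀ x, |g' x| ≤ D) :
    ∫ y, y * g y ∂gam = ∫ y, g' y ∂gam := by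
  have hgc : Continuous g := continuous_iff_continuousAt.2 fun x => (hg x).continuousAt
  have h1 : Integrable (fun y => g' y) gam := integrable_of_bdd hg'c hD
  have h2 : Integrable (fun y => y * g y) gam := by
    refine (gam_integrable_abs.mul_const C).mono' (by fun_prop) (Eventually.of_forall fun y => ?_)
    rw [Real.norm_eq_abs, abs_mul]
    exact mul_le_mul_of_nonneg_left (hC y) (abs_nonneg y)
  have key : ∫ y, (g' y - y * g y) ∂gam = 0 := by
    rw [gam_integral]
    have hd : ∀ y, HasDerivAt (fun y => ph y * g y) (ph y * (g' y - y * g y)) y := by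
      intro y
      refine ((ph_hasDerivAt y).mul (hg y)).congr_deriv ?_
      ring
    have hint : Integrable (fun y => ph y * (g' y - y * g y)) := by
      have h3 := h1.sub h2
      rw [show (gam : Measure ℝ) = gaussianReal 0 1 from rfl,
        gaussianReal_of_var_ne_zero 0 one_ne_zero] at h3
      rw [integrable_withDensity_iff_integrable_smul' (measurable_gaussianPDF 0 1)
        (Eventually.of_forall fun x => gaussianPDF_lt_top)] at h3
      refine h3.congr (Eventually.of_forall fun y => ?_)
      simp [toReal_gaussianPDF, ph_eq]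
    have hz : ∀ l : Filter ℝ, Tendsto ph l (𝓝 0) → Tendsto (fun y => ph y * g y) l (𝓝 0) := by
      intro l hl
      have hl2 : Tendsto (fun y => ph y * C) l (𝓝 0) := by simpa using hl.mul_const C
      refine squeeze_zero_norm (fun y => ?_) hl2
      rw [Real.norm_eq_abs, abs_mul, abs_of_pos (ph_pos y)]
      exact mul_le_mul_of_nonneg_left (hC y) (ph_pos y).le
    rw [integral_of_hasDerivAt_of_tendsto hd hint (hz _ ph_tendsto_atBot) (hz _ ph_tendsto_atTop)]
    simp
  rw [integral_sub h1 h2] at key
  linarith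

/-- a C^2 function with bounded derivatives -/
structure C2b (f f1 f2 : ℝ → ℝ) (A B C : ℝ) : Prop where
  d1 : ∀ x, HasDerivAt f (f1 x) x
  d2 : ∀ x, HasDerivAt f1 (f2 x) x
  c2 : Continuous f2
  b0 : ∀ x, |f x| ≤ A
  b1 : ∀ x, |f1 x| ≤ B
  b2 : ∀ x, |f2 x| ≤ C

/-- heat flow -/
noncomputable def HF (f : ℝ → ℝ) (t x : ℝ) : ℝ := ∫ y, f (x + Real.sqrt t * y) ∂gam

variable {f f1 f2 : ℝ → ℝ} {A B C : ℝ}

theorem C2b.cont (h : C2b f f1 f2 A B C) : Continuous f :=
  continuous_iff_continuousAt.2 fun x => (h.d1 x).continuousAt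

theorem C2b.cont1 (h : C2b f f1 f2 A B C) : Continuous f1 :=
  continuous_iff_continuousAt.2 fun x => (h.d2 x).continuousAt

theorem HF_continuous {f : ℝ → ℝ} (hf : Continuous f) {A : ℝ} (hA : ∀ x, |f x| ≤ A) :
    Continuous (fun p : ℝ × ℝ => HF f p.1 p.2) := by
  unfold HF
  refine continuous_of_dominated (bound := fun _ => A) (fun p => ?_) (fun p => ?_)
    (integrable_const A) (Eventually.of_forall fun y => ?_)
  · fun_prop
  · exact Eventually.of_forall fun y => hA _
  · fun_prop

theorem HF_dx {f f1 : ℝ → ℝ} {A B : ℝ} (hd : ∀ x, HasDerivAt f (f1 x) x) (hA : ∀ x, |f x| ≤ A)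
    (hB : ∀ x, |f1 x| ≤ B) (hc : Continuous f1) (t x : ℝ) :
    HasDerivAt (fun x => HF f t x) (HF f1 t x) x := by
  have hf : Continuous f := continuous_iff_continuousAt.2 fun x => (hd x).continuousAt
  unfold HF
  refine (hasDerivAt_integral_of_dominated_loc_of_deriv_le (𝕜 := ℝ) (E := ℝ) (μ := gam)
    (F := fun x y => f (x + Real.sqrt t * y)) (F' := fun x y => f1 (x + Real.sqrt t * y))
    (s := univ) (bound := fun _ => B)
    univ_mem (Eventually.of_forall fun x => ?_) ?_ ?_ ?_ (integrable_const B) ?_).2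
  · fun_prop
  · exact integrable_of_bdd (by fun_prop) fun y => hA _
  · fun_prop
  · exact Eventually.of_forall fun y x _ => hB _
  · refine Eventually.of_forall fun y x _ => ?_
    have := (hd (x + Real.sqrt t * y)).comp x ((hasDerivAt_id x).add_const (Real.sqrt t * y))
    simpa [Function.comp_def] using this

theorem HF_dt (h : C2b f f1 f2 A B C) {t : ℝ} (ht : 0 < t) (x : ℝ) :
    HasDerivAt (fun t => HF f t x) (HF f2 t x / 2) t := by
  have hf := h.cont
  have hf1 := h.cont1
  have hder : HasDerivAt (fun t => ∫ y, f (x + Real.sqrt t * y) ∂gam)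
      (∫ y, f1 (x + Real.sqrt t * y) * (1 / (2 * Real.sqrt t) * y) ∂gam) t := by
    refine (hasDerivAt_integral_of_dominated_loc_of_deriv_le (𝕜 := ℝ) (E := ℝ) (μ := gam)
      (F := fun t y => f (x + Real.sqrt t * y))
      (F' := fun t y => f1 (x + Real.sqrt t * y) * (1 / (2 * Real.sqrt t) * y)) (s := Ioi (t / 4))
      (bound := fun y => B * (1 / Real.sqrt t * |y|))
      (Ioi_mem_nhds (show t / 4 < t by linarith)) (Eventually.of_forall fun s => ?_) ?_ ?_ ?_ ?_ ?_).2
    · fun_prop
    · exact integrable_of_bdd (by fun_prop) fun y => h.b0 _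
    · fun_prop
    · refine Eventually.of_forall fun y s hs => ?_
      have hs' : t / 4 < s := hs
      have hsq : Real.sqrt t ≤ 2 * Real.sqrt s := by
        have h4 : Real.sqrt t = 2 * Real.sqrt (t / 4) := by
          rw [show t / 4 = t * (1 / 2) ^ 2 by ring, Real.sqrt_mul ht.le, Real.sqrt_sq (by norm_num)]
          ring
        rw [h4]
        have := Real.sqrt_le_sqrt hs'.le
        linarith
      have hst : 0 < Real.sqrt t := Real.sqrt_pos.2 ht
      rw [Real.norm_eq_abs, abs_mul, abs_mul]
      have h5 : |1 / (2 * Real.sqrt s)| ≤ 1 / Real.sqrt t := by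
        rw [abs_of_nonneg (by positivity)]
        exact one_div_le_one_div_of_le hst hsq
      have hB0 : 0 ≤ B := (abs_nonneg _).trans (h.b1 0)
      exact mul_le_mul (h.b1 _) (mul_le_mul_of_nonneg_right h5 (abs_nonneg y)) (by positivity) hB0
    · exact (gam_integrable_abs.const_mul _).const_mul _
    · refine Eventually.of_forall fun y s hs => ?_
      have hs' : t / 4 < s := hs
      have hs0 : s ≠ 0 := by linarith
      have h6 := (((Real.hasDerivAt_sqrt hs0).mul_const y).const_add x)
      exact (h.d1 (x + Real.sqrt s * y)).comp s h6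
  have heq : (∫ y, f1 (x + Real.sqrt t * y) * (1 / (2 * Real.sqrt t) * y) ∂gam) = HF f2 t x / 2 := by
    have hst : 0 < Real.sqrt t := Real.sqrt_pos.2 ht
    have h7 := ibp (g := fun y => f1 (x + Real.sqrt t * y))
      (g' := fun y => f2 (x + Real.sqrt t * y) * Real.sqrt t) (C := B) (D := C * Real.sqrt t)
      (fun y => by
        have := (h.d2 (x + Real.sqrt t * y)).comp y (((hasDerivAt_id y).const_mul (Real.sqrt t)).const_add x)
        simpa [Function.comp_def] using this)
      (by have := h.c2; fun_prop) (fun y => h.b1 _) (fun y => by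
        rw [abs_mul, abs_of_pos hst]
        exact mul_le_mul_of_nonneg_right (h.b2 _) hst.le)
    have h8 : (∫ y, f1 (x + Real.sqrt t * y) * (1 / (2 * Real.sqrt t) * y) ∂gam)
        = 1 / (2 * Real.sqrt t) * ∫ y, y * f1 (x + Real.sqrt t * y) ∂gam := by
      rw [← integral_const_mul]
      congr 1; funext y; ring
    rw [h8, h7, integral_mul_const]
    unfold HF
    field_simp
  rw [← heq]
  exact hder

end Vale.Agent.P262.Ehr
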