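import Vale.Agent.P262.Ehr.Multi

/-!
[J-C], part 1: the perturbation `U(t,y) = w y + t b y - (t^2/2)(q y + κ)` is jointly concave for
small `t`.
-/

open MeasureTheory ProbabilityTheory Set Filter Topology

namespace Vale.Agent.P262.JC

variable {E : Type*} [NormedAddCommGroup E] [NormedSpace ℝ E]

/-- the perturbed function -/
noncomputable def U (w b q : E → ℝ) (κ : ℝ) (t : ℝ) (y : E) : ℝ :=
  w y + t * b y - t ^ 2 / 2 * (q y + κ)

theorem line0 (y η : E) (s : ℝ) : HasDerivAt (fun s : ℝ => y + s • η) η s := by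
  have h := ((hasDerivAt_id s).smul_const η).const_add y
  rw [one_smul] at h
  exact h

theorem line1 {f : E → ℝ} (hf : ContDiff ℝ 2 f) (y η : E) (s : ℝ) :
    HasDerivAt (fun s : ℝ => f (y + s • η)) (fderiv ℝ f (y + s • η) η) s := by
  have h1 : HasFDerivAt f (fderiv ℝ f (y + s • η)) (y + s • η) :=
    (hf.differentiable two_ne_zero _).hasFDerivAt
  exact h1.comp_hasDerivAt s (line0 y η s)

theorem line2 {f : E → ℝ} (hf : ContDiff ℝ 2 f) (y η : E) (s : ℝ) :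
    HasDerivAt (fun s : ℝ => fderiv ℝ f (y + s • η) η)
      (fderiv ℝ (fderiv ℝ f) (y + s • η) η η) s := by
  have hf1 : ContDiff ℝ 1 (fderiv ℝ f) := hf.fderiv_right le_rfl
  have h1 : HasFDerivAt (fderiv ℝ f) (fderiv ℝ (fderiv ℝ f) (y + s • η)) (y + s • η) :=
    (hf1.differentiable one_ne_zero _).hasFDerivAt
  have h2 := h1.comp_hasDerivAt s (line0 y η s)
  have h3 := h2.clm_apply (hasDerivAt_const s η)
  rw [map_zero, add_zero] at h3
  exact h3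

/-- the elementary inequality -/
theorem quad_ineq {δ κ Q B Q1 Q2 : ℝ} (hδ : 0 < δ) (hκ : 0 < κ) (hQ : 0 ≤ Q) (hB : 0 ≤ B)
    (hQ1 : 0 ≤ Q1) (hQ2 : 0 ≤ Q2) :
    ∃ t0 : ℝ, 0 < t0 ∧ ∀ p β q τ n t b2 q1 q2 : ℝ, 0 ≤ n → δ * n ^ 2 ≤ p → β ^ 2 ≤ q * p →
      0 ≤ q → q ≤ Q → |t| ≤ t0 → |b2| ≤ B * n ^ 2 → |q1| ≤ Q1 * n → |q2| ≤ Q2 * n ^ 2 →
      -p + 2 * τ * β + t * b2 - τ ^ 2 * (q + κ) - 2 * t * τ * q1 - t ^ 2 / 2 * q2 ≤ 0 := by
  -- theta = 1/(1+κ/(2Q+2)) ; 1 - theta = κ/(2Q+2+κ)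
  set m : ℝ := κ / (2 * Q + 2 + κ) with hm
  have hm0 : 0 < m := by positivity
  have hm1 : m < 1 := by rw [hm, div_lt_one (by positivity)]; linarith
  set c : ℝ := min (m * δ) (κ / 2) with hc
  have hc0 : 0 < c := lt_min (by positivity) (by positivity)
  set C : ℝ := B + Q1 + Q2 + 1 with hC
  have hC0 : 0 < C := by positivity
  refine ⟨min 1 (c / C), lt_min one_pos (by positivity), ?_⟩
  intro p β q τ n t b2 q1 q2 hn hp hβ hq0 hqQ ht hb2 hq1 hq2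
  have ht1 : |t| ≤ 1 := ht.trans (min_le_left _ _)
  have htC : |t| * C ≤ c := by
    have := ht.trans (min_le_right _ _)
    rwa [le_div_iff₀ hC0] at this
  have hp0 : 0 ≤ p := (by positivity : 0 ≤ δ * n ^ 2).trans hp
  -- main part: 2 τ β ≤ (1-m) p + τ^2 (q + κ/2)
  have h1 : 2 * τ * β ≤ (1 - m) * p + τ ^ 2 * (q + κ / 2) := by
    have h1m : 0 < 1 - m := by linarith
    -- q ≤ (1-m)(q+κ/2)
    have hqm : q ≤ (1 - m) * (q + κ / 2) := by
      have e : (1 - m) * (2 * Q + 2 + κ) = 2 * Q + 2 := by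
        rw [hm]; field_simp; ring
      have hD : 0 < 2 * Q + 2 + κ := by positivity
      have : q * (2 * Q + 2 + κ) ≤ (1 - m) * (q + κ / 2) * (2 * Q + 2 + κ) := by
        calc q * (2 * Q + 2 + κ) ≤ (2 * Q + 2) * (q + κ / 2) := by nlinarith
          _ = ((1 - m) * (2 * Q + 2 + κ)) * (q + κ / 2) := by rw [e]
          _ = (1 - m) * (q + κ / 2) * (2 * Q + 2 + κ) := by ring
      exact le_of_mul_le_mul_right this hD
    have h2 : (τ * β) ^ 2 ≤ ((1 - m) * p) * (τ ^ 2 * (q + κ / 2)) := by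
      calc (τ * β) ^ 2 = τ ^ 2 * β ^ 2 := by ring
        _ ≤ τ ^ 2 * (q * p) := mul_le_mul_of_nonneg_left hβ (sq_nonneg _)
        _ ≤ τ ^ 2 * (((1 - m) * (q + κ / 2)) * p) := by
            refine mul_le_mul_of_nonneg_left ?_ (sq_nonneg _)
            exact mul_le_mul_of_nonneg_right hqm hp0
        _ = _ := by ring
    have hX : 0 ≤ (1 - m) * p := by positivity
    have hY : 0 ≤ τ ^ 2 * (q + κ / 2) := by positivity
    nlinarith [sq_nonneg ((1 - m) * p - τ ^ 2 * (q + κ / 2)), abs_nonneg (τ * β),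
      abs_le_of_sq_le_sq (show (2 * (τ * β)) ^ 2 ≤ ((1 - m) * p + τ ^ 2 * (q + κ / 2)) ^ 2 by
        nlinarith [sq_nonneg ((1 - m) * p - τ ^ 2 * (q + κ / 2))]) (by positivity)]
  -- error
  have e1 : t * b2 ≤ |t| * (B * n ^ 2) := by
    calc t * b2 ≤ |t * b2| := le_abs_self _
      _ = |t| * |b2| := abs_mul _ _
      _ ≤ _ := mul_le_mul_of_nonneg_left hb2 (abs_nonneg _)
  have e2 : -(2 * t * τ * q1) ≤ |t| * (Q1 * (n ^ 2 + τ ^ 2)) := by
    calc -(2 * t * τ * q1) ≤ |2 * t * τ * q1| := neg_le_abs _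
      _ = |t| * (2 * |τ| * |q1|) := by rw [abs_mul, abs_mul, abs_mul, abs_two]; ring
      _ ≤ |t| * (Q1 * (n ^ 2 + τ ^ 2)) := by
          refine mul_le_mul_of_nonneg_left ?_ (abs_nonneg _)
          have h3 := mul_le_mul_of_nonneg_left hq1 (by positivity : 0 ≤ 2 * |τ|)
          have h4 : 2 * |τ| * n ≤ n ^ 2 + τ ^ 2 := by
            nlinarith [sq_nonneg (|τ| - n), sq_abs τ]
          have h5 := mul_le_mul_of_nonneg_left h4 hQ1
          linarith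
  have e3 : -(t ^ 2 / 2 * q2) ≤ |t| * (Q2 * n ^ 2) := by
    calc -(t ^ 2 / 2 * q2) ≤ |t ^ 2 / 2 * q2| := neg_le_abs _
      _ = t ^ 2 / 2 * |q2| := by rw [abs_mul, abs_of_nonneg (by positivity : 0 ≤ t ^ 2 / 2)]
      _ ≤ |t| * (Q2 * n ^ 2) := by
          have h3 : t ^ 2 / 2 ≤ |t| := by
            rw [← sq_abs]; nlinarith [abs_nonneg t]
          exact mul_le_mul h3 hq2 (abs_nonneg _) (abs_nonneg _)
  have e4 : |t| * (B * n ^ 2) + |t| * (Q1 * (n ^ 2 + τ ^ 2)) + |t| * (Q2 * n ^ 2)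
      ≤ c * (n ^ 2 + τ ^ 2) := by
    have h3 : 0 ≤ n ^ 2 + τ ^ 2 := by positivity
    have h4 := mul_le_mul_of_nonneg_right htC h3
    have h5 : 0 ≤ |t| * (B * τ ^ 2) := by positivity
    have h6 : 0 ≤ |t| * (Q2 * τ ^ 2) := by positivity
    have h7 : 0 ≤ |t| * (n ^ 2 + τ ^ 2) := by positivity
    have e : |t| * C * (n ^ 2 + τ ^ 2) = |t| * (B * n ^ 2) + |t| * (Q1 * (n ^ 2 + τ ^ 2))
        + |t| * (Q2 * n ^ 2) + |t| * (B * τ ^ 2) + |t| * (Q2 * τ ^ 2) + |t| * (n ^ 2 + τ ^ 2) := by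
      rw [hC]; ring
    linarith
  have e5 : c * (n ^ 2 + τ ^ 2) ≤ m * p + κ / 2 * τ ^ 2 := by
    have h3 : c * n ^ 2 ≤ m * p := by
      have h4 := mul_le_mul_of_nonneg_right (min_le_left (m * δ) (κ / 2)) (sq_nonneg n)
      have h5 := mul_le_mul_of_nonneg_left hp hm0.le
      rw [hc]; linarith
    have h4 := mul_le_mul_of_nonneg_right (min_le_right (m * δ) (κ / 2)) (sq_nonneg τ)
    rw [← hc] at h4
    linarith
  linarith

end Vale.Agent.P262.JC
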