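import Vale.Agent.P262.H889.JC1

/-!
[J-C], part 2: joint concavity of the perturbation; the inequality `N(t) + N(-t) ≤ 2 N(0)`.
-/

open MeasureTheory ProbabilityTheory Set Filter Topology

namespace Vale.Agent.P262.JC

section conc

variable {E : Type*} [NormedAddCommGroup E] [NormedSpace ℝ E]

/-- the data of [J-C] -/
structure Dat (w b q : E → ℝ) (δ : ℝ) : Prop where
  hw : ContDiff ℝ 2 w
  hb : ContDiff ℝ 2 b
  hq : ContDiff ℝ 2 q
  cb : HasCompactSupport b
  cq : HasCompactSupport q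
  δ0 : 0 < δ
  conc : ∀ x η, fderiv ℝ (fderiv ℝ w) x η η ≤ -(δ * ‖η‖ ^ 2)
  q0 : ∀ x, 0 ≤ q x
  cs : ∀ x η, (fderiv ℝ b x η) ^ 2 ≤ q x * (-(fderiv ℝ (fderiv ℝ w) x η η))

/-- first derivative of `U` along a line -/
theorem U_line1 {w b q : E → ℝ} {δ : ℝ} (h : Dat w b q δ) (κ t τ : ℝ) (y η : E) (s : ℝ) :
    HasDerivAt (fun s : ℝ => U w b q κ (t + s * τ) (y + s • η))
      (fderiv ℝ w (y + s • η) η + (τ * b (y + s • η) + (t + s * τ) * fderiv ℝ b (y + s • η) η)
        - ((t + s * τ) * τ * (q (y + s • η) + κ)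
          + (t + s * τ) ^ 2 / 2 * fderiv ℝ q (y + s • η) η)) s := by
  have ht : HasDerivAt (fun s : ℝ => t + s * τ) τ s := by
    simpa using ((hasDerivAt_id s).mul_const τ).const_add t
  have ht2 : HasDerivAt (fun s : ℝ => (t + s * τ) ^ 2 / 2) ((t + s * τ) * τ) s := by
    refine ((ht.pow 2).div_const 2).congr_deriv ?_
    norm_num
    ring
  have h1 := line1 h.hw y η s
  have h2 := ht.mul (line1 h.hb y η s)
  have h3 := ht2.mul ((line1 h.hq y η s).add_const κ)
  exact (h1.add h2).sub h3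

/-- second derivative of `U` along a line -/
theorem U_line2 {w b q : E → ℝ} {δ : ℝ} (h : Dat w b q δ) (κ t τ : ℝ) (y η : E) (s : ℝ) :
    HasDerivAt (fun s : ℝ => fderiv ℝ w (y + s • η) η
        + (τ * b (y + s • η) + (t + s * τ) * fderiv ℝ b (y + s • η) η)
        - ((t + s * τ) * τ * (q (y + s • η) + κ)
          + (t + s * τ) ^ 2 / 2 * fderiv ℝ q (y + s • η) η))
      (fderiv ℝ (fderiv ℝ w) (y + s • η) η η + 2 * τ * fderiv ℝ b (y + s • η) η
        + (t + s * τ) * fderiv ℝ (fderiv ℝ b) (y + s • η) η η - τ ^ 2 * (q (y + s • η) + κ)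
        - 2 * (t + s * τ) * τ * fderiv ℝ q (y + s • η) η
        - (t + s * τ) ^ 2 / 2 * fderiv ℝ (fderiv ℝ q) (y + s • η) η η) s := by
  have ht : HasDerivAt (fun s : ℝ => t + s * τ) τ s := by
    simpa using ((hasDerivAt_id s).mul_const τ).const_add t
  have ht2 : HasDerivAt (fun s : ℝ => (t + s * τ) ^ 2 / 2) ((t + s * τ) * τ) s := by
    refine ((ht.pow 2).div_const 2).congr_deriv ?_
    norm_num
    ring
  have h1 := line2 h.hw y η s
  have h2 := ((line1 h.hb y η s).const_mul τ).add (ht.mul (line2 h.hb y η s))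
  have h3 := ((ht.mul_const τ).mul ((line1 h.hq y η s).add_const κ)).add
    (ht2.mul (line2 h.hq y η s))
  refine ((h1.add h2).sub h3).congr_deriv ?_
  ring

omit [NormedSpace ℝ E] in
theorem bound_of_compact {F : Type*} [NormedAddCommGroup F] {f : E → F} (hf : Continuous f)
    (hc : HasCompactSupport f) : ∃ C, 0 ≤ C ∧ ∀ x, ‖f x‖ ≤ C := by
  obtain ⟨C, hC⟩ := hf.bounded_above_of_compact_support hc
  exact ⟨max C 0, le_max_right _ _, fun x => (hC x).trans (le_max_left _ _)⟩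

theorem U_concave {w b q : E → ℝ} {δ : ℝ} (h : Dat w b q δ) {κ : ℝ} (hκ : 0 < κ) :
    ∃ t0 : ℝ, 0 < t0 ∧ ∀ t t' : ℝ, ∀ y y' : E, |t| ≤ t0 → |t'| ≤ t0 → ∀ l : ℝ, 0 ≤ l → l ≤ 1 →
      (1 - l) * U w b q κ t y + l * U w b q κ t' y'
        ≤ U w b q κ ((1 - l) * t + l * t') ((1 - l) • y + l • y') := by
  have hb1 : ContDiff ℝ 1 (fderiv ℝ b) := h.hb.fderiv_right le_rfl
  have hq1 : ContDiff ℝ 1 (fderiv ℝ q) := h.hq.fderiv_right le_rfl
  obtain ⟨Q, hQ0, hQ⟩ := bound_of_compact h.hq.continuous h.cq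
  obtain ⟨B, hB0, hB⟩ := bound_of_compact (hb1.continuous_fderiv one_ne_zero)
    ((h.cb.fderiv ℝ).fderiv ℝ)
  obtain ⟨Q1, hQ10, hQ1⟩ := bound_of_compact hq1.continuous (h.cq.fderiv ℝ)
  obtain ⟨Q2, hQ20, hQ2⟩ := bound_of_compact (hq1.continuous_fderiv one_ne_zero)
    ((h.cq.fderiv ℝ).fderiv ℝ)
  obtain ⟨t0, ht0, key⟩ := quad_ineq h.δ0 hκ hQ0 hB0 hQ10 hQ20
  refine ⟨t0, ht0, fun t t' y y' ht ht' l hl0 hl1 => ?_⟩
  set τ := t' - t with hτ
  set η := y' - y with hη
  have hconc : ConcaveOn ℝ (Icc (0 : ℝ) 1)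
      (fun s : ℝ => U w b q κ (t + s * τ) (y + s • η)) := by
    refine concaveOn_of_hasDerivWithinAt2_nonpos (convex_Icc 0 1)
      (fun s _ => (U_line1 h κ t τ y η s).continuousAt.continuousWithinAt)
      (fun s _ => (U_line1 h κ t τ y η s).hasDerivWithinAt)
      (fun s _ => (U_line2 h κ t τ y η s).hasDerivWithinAt) ?_
    intro s hs
    rw [interior_Icc] at hs
    have hts : |t + s * τ| ≤ t0 := by
      have e : t + s * τ = (1 - s) * t + s * t' := by rw [hτ]; ring
      rw [e, abs_le]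
      have h1 := abs_le.1 ht
      have h2 := abs_le.1 ht'
      constructor <;> nlinarith [hs.1, hs.2, h1.1, h1.2, h2.1, h2.2]
    have k := key (-(fderiv ℝ (fderiv ℝ w) (y + s • η) η η)) (fderiv ℝ b (y + s • η) η)
      (q (y + s • η)) τ ‖η‖ (t + s * τ) (fderiv ℝ (fderiv ℝ b) (y + s • η) η η)
      (fderiv ℝ q (y + s • η) η) (fderiv ℝ (fderiv ℝ q) (y + s • η) η η) (norm_nonneg _)
      (by have := h.conc (y + s • η) η; linarith) (h.cs _ _) (h.q0 _)
      (by have := hQ (y + s • η); rw [Real.norm_eq_abs] at this; exact (le_abs_self _).trans this)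
      hts
      (by
        have h1 := (fderiv ℝ (fderiv ℝ b) (y + s • η)).le_opNorm₂ η η
        rw [Real.norm_eq_abs] at h1
        refine h1.trans ?_
        rw [mul_assoc, ← sq]
        exact mul_le_mul_of_nonneg_right (hB _) (sq_nonneg _))
      (by
        have h1 := (fderiv ℝ q (y + s • η)).le_opNorm η
        rw [Real.norm_eq_abs] at h1
        exact h1.trans (mul_le_mul_of_nonneg_right (hQ1 _) (norm_nonneg _)))
      (by
        have h1 := (fderiv ℝ (fderiv ℝ q) (y + s • η)).le_opNorm₂ η η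
        rw [Real.norm_eq_abs] at h1
        refine h1.trans ?_
        rw [mul_assoc, ← sq]
        exact mul_le_mul_of_nonneg_right (hQ2 _) (sq_nonneg _))
    rw [neg_neg] at k
    exact k
  have h2 := hconc.2 (x := 0) (y := 1) ⟨le_rfl, zero_le_one⟩ ⟨zero_le_one, le_rfl⟩
    (by linarith : (0 : ℝ) ≤ 1 - l) hl0 (by ring)
  simp only [smul_eq_mul, mul_zero, zero_mul, add_zero, zero_smul, mul_one, one_mul, one_smul,
    zero_add] at h2
  have e1 : t + τ = t' := by rw [hτ]; ring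
  have e2 : y + η = y' := by rw [hη]; abel
  have e3 : t + l * τ = (1 - l) * t + l * t' := by rw [hτ]; ring
  have e4 : y + l • η = (1 - l) • y + l • y' := by
    rw [hη, smul_sub, sub_smul, one_smul]; abel
  rw [e1, e2, e3, e4] at h2
  exact h2

end conc

/-- elementary inequality for `Phi` -/
theorem Phi_add_le {α β ν : ℝ} (hν : 0 ≤ ν) (h : α + β ≤ 2 * ν) :
    Ehr.Phi α + Ehr.Phi β ≤ 2 * Ehr.Phi ν := by
  -- wlog ν ≤ α
  have key : ∀ α : ℝ, ν ≤ α → Ehr.Phi α + Ehr.Phi (2 * ν - α) ≤ 2 * Ehr.Phi ν := by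
    intro α hα
    have hd : ∀ s, HasDerivAt (fun s => Ehr.Phi s + Ehr.Phi (2 * ν - s))
        (Ehr.phi s + Ehr.phi (2 * ν - s) * (-1)) s := fun s => by
      have h1 : HasDerivAt (fun s : ℝ => 2 * ν - s) (-1) s := by
        simpa using (hasDerivAt_id s).const_sub (2 * ν)
      exact (Ehr.Phi_hasDerivAt s).add ((Ehr.Phi_hasDerivAt (2 * ν - s)).comp s h1)
    have hanti : AntitoneOn (fun s => Ehr.Phi s + Ehr.Phi (2 * ν - s)) (Ici ν) := by
      refine antitoneOn_of_hasDerivWithinAt_nonpos (convex_Ici ν)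
        (fun s _ => (hd s).continuousAt.continuousWithinAt)
        (fun s _ => (hd s).hasDerivWithinAt) fun s hs => ?_
      rw [interior_Ici] at hs
      have hs' : ν < s := hs
      have h2 : Ehr.phi s ≤ Ehr.phi (2 * ν - s) := by
        unfold Ehr.phi gaussianPDFReal
        refine mul_le_mul_of_nonneg_left ?_ (by positivity)
        refine Real.exp_le_exp.2 ?_
        simp only [sub_zero, NNReal.coe_one, mul_one]
        have : (2 * ν - s) ^ 2 ≤ s ^ 2 := by nlinarith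
        linarith
      show Ehr.phi s + Ehr.phi (2 * ν - s) * (-1) ≤ 0
      linarith
    have h3 := hanti (mem_Ici.2 (le_refl ν)) (mem_Ici.2 hα) hα
    simp only at h3
    have e : 2 * ν - ν = ν := by ring
    rw [e] at h3
    linarith
  rcases le_total ν α with hα | hα
  · have h1 := key α hα
    have h2 : Ehr.Phi β ≤ Ehr.Phi (2 * ν - α) := Ehr.Phi_strictMono.monotone (by linarith)
    linarith
  · rcases le_total ν β with hβ | hβ
    · have h1 := key β hβ
      have h2 : Ehr.Phi α ≤ Ehr.Phi (2 * ν - β) := Ehr.Phi_strictMono.monotone (by linarith)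
      linarith
    · have h1 := Ehr.Phi_strictMono.monotone hα
      have h2 := Ehr.Phi_strictMono.monotone hβ
      linarith

theorem Phi_zero : Ehr.Phi 0 = 1 / 2 := by
  have h1 : (gaussianReal 0 1).real (Iic (0 : ℝ)) = (gaussianReal 0 1).real (Ici (0 : ℝ)) := by
    have h := gaussianReal_map_neg (μ := 0) (v := 1)
    rw [neg_zero] at h
    have h2 : (gaussianReal 0 1).real (Iic (0 : ℝ))
        = ((gaussianReal 0 1).map (fun x : ℝ => -x)).real (Iic (0 : ℝ)) := by rw [h]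
    rw [h2, measureReal_def, Measure.map_apply measurable_neg measurableSet_Iic, measureReal_def]
    congr 2
    ext x; simp
  have hna : NullSingletonClass (gaussianReal 0 1) := nullSingletonClass_gaussianReal one_ne_zero
  have h2 : (gaussianReal 0 1).real (Ici (0 : ℝ)) = (gaussianReal 0 1).real (Ioi (0 : ℝ)) := by
    rw [measureReal_def, measureReal_def]
    congr 1
    exact measure_congr Ioi_ae_eq_Ici.symm
  have h3 : (gaussianReal 0 1).real (Iic (0 : ℝ)) + (gaussianReal 0 1).real (Iic (0 : ℝ))ᶜ = 1 := by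
    rw [measureReal_add_measureReal_compl measurableSet_Iic]; simp
  rw [compl_Iic, ← h2, ← h1] at h3
  show (gaussianReal 0 1).real (Iic (0 : ℝ)) = 1 / 2
  linarith

/-- consequence for `comb` at the midpoint -/
theorem add_le_of_comb {A B C : ℝ} (hA : 0 < A) (hA1 : A < 1) (hB : 0 < B) (hB1 : B < 1)
    (hC : 1 / 2 ≤ C) (hC1 : C < 1) (h : Ehr.comb (1 / 2) A B ≤ C) : A + B ≤ 2 * C := by
  rw [Ehr.comb_mid hA hA1 hB hB1] at h
  have hC0 : 0 < C := by linarith
  rw [← Ehr.Phi_Psi hC0 hC1] at h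
  have h1 := Ehr.Phi_strictMono.le_iff_le.1 h
  have h0 : Ehr.Phi 0 = 1 / 2 := Phi_zero
  have hν : 0 ≤ Ehr.Psi C := by
    rw [← Ehr.Phi_strictMono.le_iff_le, Ehr.Phi_Psi hC0 hC1, h0]; exact hC
  have h2 := Phi_add_le hν (show Ehr.Psi A + Ehr.Psi B ≤ 2 * Ehr.Psi C by linarith)
  rwa [Ehr.Phi_Psi hA hA1, Ehr.Phi_Psi hB hB1, Ehr.Phi_Psi hC0 hC1] at h2

end Vale.Agent.P262.JC
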