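import Vale.Agent.P262.H889.JC2
import Vale.Agent.P156.H814.Vol

/-!
[J-C], part 3: `N(t) + N(-t) ≤ 2 N(0)` from Ehrhard's inequality.
-/

open MeasureTheory ProbabilityTheory Set Filter Topology

namespace Vale.Agent.P262.JC

variable {k : ℕ}


theorem norm_toLp_sq (g : Fin k → ℝ) : ‖(WithLp.toLp 2 g : EuclideanSpace ℝ (Fin k))‖ ^ 2 = ∑ i, g i ^ 2 := by
  rw [EuclideanSpace.norm_sq_eq]
  simp

/-- integrals over `gam k` as Lebesgue integrals over the Euclidean space -/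
theorem integral_gam_eq (F : EuclideanSpace ℝ (Fin k) → ℝ) :
    ∫ g, F (WithLp.toLp 2 g) ∂(Ehr.gam k)
      = (Real.sqrt (2 * Real.pi))⁻¹ ^ k * ∫ y : EuclideanSpace ℝ (Fin k), F y * Real.exp (-‖y‖ ^ 2 / 2) := by
  have h1 : Ehr.gam k = (volume : Measure (Fin k → ℝ)).withDensity
      fun y => ENNReal.ofReal (∏ i, gaussianPDFReal 0 1 (y i)) := by
    rw [Ehr.gam]; exact P156.H814.stdG_eq
  have hmeas : Measurable fun y : Fin k → ℝ => ∏ i, gaussianPDFReal 0 1 (y i) :=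
    Finset.measurable_prod _ fun i _ => (measurable_gaussianPDFReal 0 1).comp (measurable_pi_apply i)
  rw [h1, integral_withDensity_eq_integral_toReal_smul hmeas.ennreal_ofReal
    (Eventually.of_forall fun _ => ENNReal.ofReal_lt_top)]
  have h2 := (PiLp.volume_preserving_toLp (Fin k)).integral_comp
    (MeasurableEquiv.toLp 2 (Fin k → ℝ)).measurableEmbedding
    (fun y : EuclideanSpace ℝ (Fin k) => F y * Real.exp (-‖y‖ ^ 2 / 2))
  rw [← h2, ← integral_const_mul]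
  refine integral_congr_ae (Eventually.of_forall fun g => ?_)
  have hp : 0 ≤ ∏ i, gaussianPDFReal 0 1 (g i) :=
    Finset.prod_nonneg fun i _ => gaussianPDFReal_nonneg 0 1 _
  simp only [smul_eq_mul]
  rw [ENNReal.toReal_ofReal hp, P156.H814.prod_pdf, Fintype.card_fin, norm_toLp_sq]
  ring

/-- the Gaussian average of the perturbed function -/
noncomputable def NN (w b q : EuclideanSpace ℝ (Fin k) → ℝ) (κ : ℝ) (a : EuclideanSpace ℝ (Fin k))
    (t : ℝ) : ℝ :=
  ∫ y : EuclideanSpace ℝ (Fin k), Ehr.Phi (U w b q κ t y) * Real.exp (-‖y - t • a‖ ^ 2 / 2)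

theorem NN_eq (w b q : EuclideanSpace ℝ (Fin k) → ℝ) (κ : ℝ) (a : EuclideanSpace ℝ (Fin k))
    (t : ℝ) : ∫ g, Ehr.Phi (U w b q κ t (WithLp.toLp 2 g + t • a)) ∂(Ehr.gam k)
      = (Real.sqrt (2 * Real.pi))⁻¹ ^ k * NN w b q κ a t := by
  rw [integral_gam_eq (fun y => Ehr.Phi (U w b q κ t (y + t • a))), NN]
  congr 1
  have h := integral_add_right_eq_self (μ := (volume : Measure (EuclideanSpace ℝ (Fin k))))
    (fun y => Ehr.Phi (U w b q κ t y) * Real.exp (-‖y - t • a‖ ^ 2 / 2)) (t • a)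
  rw [← h]
  refine integral_congr_ae (Eventually.of_forall fun y => ?_)
  simp

/-- the auxiliary jointly `Phi`-concave function -/
noncomputable def V (w b q : EuclideanSpace ℝ (Fin k) → ℝ) (κ : ℝ) (a : EuclideanSpace ℝ (Fin k))
    (t0 : ℝ) (p : ℝ × (Fin k → ℝ)) : ℝ :=
  if |p.1| ≤ t0 then Ehr.Phi (U w b q κ p.1 (WithLp.toLp 2 p.2 + p.1 • a)) else 0

theorem V_phiConcave {w b q : EuclideanSpace ℝ (Fin k) → ℝ} {κ : ℝ}
    {a : EuclideanSpace ℝ (Fin k)} {t0 : ℝ}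
    (h : ∀ t t' : ℝ, ∀ y y' : EuclideanSpace ℝ (Fin k), |t| ≤ t0 → |t'| ≤ t0 → ∀ l : ℝ, 0 ≤ l →
      l ≤ 1 → (1 - l) * U w b q κ t y + l * U w b q κ t' y'
        ≤ U w b q κ ((1 - l) * t + l * t') ((1 - l) • y + l • y')) :
    Ehr.PhiConcave (V w b q κ a t0) := by
  refine ⟨fun p => ?_, fun p => ?_, fun p p' l hl0 hl1 => ?_⟩
  · unfold V
    split_ifs
    · exact (Ehr.Phi_pos _).le
    · exact le_rfl
  · unfold V
    split_ifs
    · exact (Ehr.Phi_lt_one _).le
    · exact zero_le_one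
  · by_cases h1 : |p.1| ≤ t0
    swap
    · have e : V w b q κ a t0 p = 0 := if_neg h1
      rw [e, Ehr.comb_zero (Or.inl le_rfl)]
      unfold V
      split_ifs
      · exact (Ehr.Phi_pos _).le
      · exact le_rfl
    by_cases h2 : |p'.1| ≤ t0
    swap
    · have e : V w b q κ a t0 p' = 0 := if_neg h2
      rw [e, Ehr.comb_zero (Or.inr le_rfl)]
      unfold V
      split_ifs
      · exact (Ehr.Phi_pos _).le
      · exact le_rfl
    have h3 : |((1 - l) • p + l • p').1| ≤ t0 := by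
      show |(1 - l) * p.1 + l * p'.1| ≤ t0
      have a1 := abs_le.1 h1
      have a2 := abs_le.1 h2
      rw [abs_le]
      constructor <;> nlinarith [a1.1, a1.2, a2.1, a2.2]
    have e1 : V w b q κ a t0 p = Ehr.Phi (U w b q κ p.1 (WithLp.toLp 2 p.2 + p.1 • a)) := if_pos h1
    have e2 : V w b q κ a t0 p' = Ehr.Phi (U w b q κ p'.1 (WithLp.toLp 2 p'.2 + p'.1 • a)) :=
      if_pos h2
    have e3 : V w b q κ a t0 ((1 - l) • p + l • p')
        = Ehr.Phi (U w b q κ ((1 - l) • p + l • p').1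
          (WithLp.toLp 2 ((1 - l) • p + l • p').2 + ((1 - l) • p + l • p').1 • a)) := if_pos h3
    rw [e1, e2, e3, Ehr.comb_mid (Ehr.Phi_pos _) (Ehr.Phi_lt_one _) (Ehr.Phi_pos _)
      (Ehr.Phi_lt_one _), Ehr.Psi_Phi, Ehr.Psi_Phi]
    refine Ehr.Phi_strictMono.monotone ?_
    have h4 := h p.1 p'.1 (WithLp.toLp 2 p.2 + p.1 • a) (WithLp.toLp 2 p'.2 + p'.1 • a) h1 h2 l
      hl0.le hl1.le
    have e4 : (1 - l) • ((WithLp.toLp 2 p.2 : EuclideanSpace ℝ (Fin k)) + p.1 • a)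
        + l • ((WithLp.toLp 2 p'.2 : EuclideanSpace ℝ (Fin k)) + p'.1 • a)
        = WithLp.toLp 2 ((1 - l) • p + l • p').2 + ((1 - l) • p + l • p').1 • a := by
      ext i
      simp only [PiLp.add_apply, PiLp.smul_apply, smul_eq_mul, Prod.smul_snd, Prod.snd_add,
        Prod.fst_add, Prod.smul_fst, Pi.add_apply, Pi.smul_apply]
      ring
    rw [e4] at h4
    exact h4

theorem integral_pos_of_pos {α : Type*} [MeasurableSpace α] {μ : Measure α}
    [IsProbabilityMeasure μ] {g : α → ℝ} (hg : Integrable g μ) (h : ∀ y, 0 < g y) :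
    0 < ∫ y, g y ∂μ := by
  rw [integral_pos_iff_support_of_nonneg (fun y => (h y).le) hg]
  have : Function.support g = univ := by
    ext y; simp [(h y).ne']
  rw [this]; simp

theorem integral_Phi_mem {α : Type*} [MeasurableSpace α] {μ : Measure α}
    [IsProbabilityMeasure μ] {g : α → ℝ} (hg : AEStronglyMeasurable g μ) :
    0 < ∫ y, Ehr.Phi (g y) ∂μ ∧ ∫ y, Ehr.Phi (g y) ∂μ < 1 := by
  have hi : Integrable (fun y => Ehr.Phi (g y)) μ :=
    Integrable.of_bound (Ehr.Phi_continuous.comp_aestronglyMeasurable hg) 1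
      (Eventually.of_forall fun y => by
        rw [Real.norm_eq_abs, abs_of_pos (Ehr.Phi_pos _)]; exact (Ehr.Phi_lt_one _).le)
  refine ⟨integral_pos_of_pos hi fun y => Ehr.Phi_pos _, ?_⟩
  have h := integral_pos_of_pos (μ := μ) (g := fun y => 1 - Ehr.Phi (g y))
    ((integrable_const 1).sub hi) fun y => sub_pos.2 (Ehr.Phi_lt_one (g y))
  rw [integral_sub (integrable_const 1) hi] at h
  simp at h
  exact h

/-- the midpoint inequality for the averages -/
theorem NN_symm {w b q : EuclideanSpace ℝ (Fin k) → ℝ} {δ : ℝ} (h : Dat w b q δ) {κ : ℝ}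
    (hκ : 0 < κ) (a : EuclideanSpace ℝ (Fin k))
    (hhalf : 1 / 2 ≤ ∫ g, Ehr.Phi (w (WithLp.toLp 2 g)) ∂(Ehr.gam k)) :
    ∃ t0 : ℝ, 0 < t0 ∧ ∀ t : ℝ, |t| ≤ t0 →
      NN w b q κ a t + NN w b q κ a (-t) ≤ 2 * NN w b q κ a 0 := by
  obtain ⟨t0, ht0, hc⟩ := U_concave h hκ
  refine ⟨t0, ht0, fun t ht => ?_⟩
  have hP := (V_phiConcave (a := a) hc).marg k
  have h1 := hP.comb_le t (-t) (1 / 2) (by norm_num) (by norm_num)
  have e0 : (1 - 1 / 2 : ℝ) • t + (1 / 2 : ℝ) • (-t) = 0 := by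
    simp only [smul_eq_mul]; ring
  rw [e0] at h1
  have hcont : ∀ s : ℝ, Continuous fun g : Fin k → ℝ =>
      U w b q κ s ((WithLp.toLp 2 g : EuclideanSpace ℝ (Fin k)) + s • a) := by
    intro s
    have hy : Continuous fun g : Fin k → ℝ =>
        (WithLp.toLp 2 g : EuclideanSpace ℝ (Fin k)) + s • a :=
      (PiLp.continuous_toLp 2 _).add continuous_const
    have c1 := h.hw.continuous.comp hy
    have c2 := h.hb.continuous.comp hy
    have c3 := h.hq.continuous.comp hy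
    unfold U
    exact (c1.add (continuous_const.mul c2)).sub (continuous_const.mul (c3.add continuous_const))
  have eV : ∀ s : ℝ, |s| ≤ t0 → ∫ g, V w b q κ a t0 (s, g) ∂(Ehr.gam k)
      = ∫ g, Ehr.Phi (U w b q κ s (WithLp.toLp 2 g + s • a)) ∂(Ehr.gam k) := by
    intro s hs
    refine integral_congr_ae (Eventually.of_forall fun g => ?_)
    exact if_pos hs
  rw [eV t ht, eV (-t) (by rwa [abs_neg]), eV 0 (by simpa using ht0.le)] at h1
  have hprob : IsProbabilityMeasure (Ehr.gam k) := by unfold Ehr.gam; infer_instance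
  have m1 := integral_Phi_mem (μ := Ehr.gam k) (hcont t).aestronglyMeasurable
  have m2 := integral_Phi_mem (μ := Ehr.gam k) (hcont (-t)).aestronglyMeasurable
  have m0 := integral_Phi_mem (μ := Ehr.gam k) (hcont 0).aestronglyMeasurable
  have hh : 1 / 2 ≤ ∫ g, Ehr.Phi (U w b q κ 0 (WithLp.toLp 2 g + (0 : ℝ) • a)) ∂(Ehr.gam k) := by
    refine hhalf.trans_eq (integral_congr_ae (Eventually.of_forall fun g => ?_))
    simp [U]
  have h2 := add_le_of_comb m1.1 m1.2 m2.1 m2.2 hh m0.2 h1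
  rw [NN_eq, NN_eq, NN_eq] at h2
  have hcpos : 0 < (Real.sqrt (2 * Real.pi))⁻¹ ^ k := by positivity
  have h3 : (Real.sqrt (2 * Real.pi))⁻¹ ^ k * (NN w b q κ a t + NN w b q κ a (-t))
      ≤ (Real.sqrt (2 * Real.pi))⁻¹ ^ k * (2 * NN w b q κ a 0) := by linarith
  exact le_of_mul_le_mul_left h3 hcpos

end Vale.Agent.P262.JC
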