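import Vale.Agent.P262.H889.JC3

/-!
[J-C], part 4: derivatives of the averages `NN` in `t`.
-/

open MeasureTheory ProbabilityTheory Set Filter Topology
open scoped RealInnerProductSpace

namespace Vale.Agent.P262.JC

theorem phi_eq (x : ℝ) : Ehr.phi x = (Real.sqrt (2 * Real.pi))⁻¹ * Real.exp (-(x ^ 2) / 2) := by
  simp [Ehr.phi, gaussianPDFReal]

theorem phi_le (x : ℝ) : Ehr.phi x ≤ 1 := by
  rw [phi_eq]
  have h1 : (1 : ℝ) ≤ Real.sqrt (2 * Real.pi) := by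
    rw [Real.one_le_sqrt]; nlinarith [Real.pi_gt_three]
  have h2 : (Real.sqrt (2 * Real.pi))⁻¹ ≤ 1 := inv_le_one_of_one_le₀ h1
  have h3 : Real.exp (-(x ^ 2) / 2) ≤ 1 := Real.exp_le_one_iff.2 (by nlinarith [sq_nonneg x])
  calc (Real.sqrt (2 * Real.pi))⁻¹ * Real.exp (-(x ^ 2) / 2) ≤ 1 * 1 :=
        mul_le_mul h2 h3 (Real.exp_pos _).le zero_le_one
    _ = 1 := one_mul 1

theorem abs_mul_phi_le (x : ℝ) : |x| * Ehr.phi x ≤ 1 := by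
  have h1 : |x| ≤ Real.exp (x ^ 2 / 2) := by
    have h := Real.add_one_le_exp (x ^ 2 / 2)
    nlinarith [sq_nonneg (|x| - 1), sq_abs x, abs_nonneg x]
  have h2 : (1 : ℝ) ≤ Real.sqrt (2 * Real.pi) := by
    rw [Real.one_le_sqrt]; nlinarith [Real.pi_gt_three]
  have h3 : (Real.sqrt (2 * Real.pi))⁻¹ ≤ 1 := inv_le_one_of_one_le₀ h2
  have h4 : |x| * Real.exp (-(x ^ 2) / 2) ≤ 1 := by
    calc |x| * Real.exp (-(x ^ 2) / 2) ≤ Real.exp (x ^ 2 / 2) * Real.exp (-(x ^ 2) / 2) :=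
          mul_le_mul_of_nonneg_right h1 (Real.exp_pos _).le
      _ = 1 := by rw [← Real.exp_add]; ring_nf; exact Real.exp_zero
  rw [phi_eq]
  calc |x| * ((Real.sqrt (2 * Real.pi))⁻¹ * Real.exp (-(x ^ 2) / 2))
      = (Real.sqrt (2 * Real.pi))⁻¹ * (|x| * Real.exp (-(x ^ 2) / 2)) := by ring
    _ ≤ 1 * 1 := mul_le_mul h3 h4 (by positivity) zero_le_one
    _ = 1 := one_mul 1

variable {V : Type*} [NormedAddCommGroup V] [InnerProductSpace ℝ V]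

/-- the Gaussian factor -/
noncomputable def ee (a : V) (t : ℝ) (y : V) : ℝ := Real.exp (-‖y - t • a‖ ^ 2 / 2)

theorem ee_pos (a : V) (t : ℝ) (y : V) : 0 < ee a t y := Real.exp_pos _

theorem ee_hasDerivAt (a : V) (t : ℝ) (y : V) :
    HasDerivAt (fun t => ee a t y) (ee a t y * ⟪y - t • a, a⟫) t := by
  have h1 : HasDerivAt (fun t : ℝ => y - t • a) (-a) t := by
    have h := ((hasDerivAt_id t).smul_const a).const_sub y
    rw [one_smul] at h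
    exact h
  have h2 := ((h1.norm_sq).neg.div_const 2).exp
  refine h2.congr_deriv ?_
  rw [inner_neg_right]
  unfold ee
  simp only [Pi.neg_apply]
  ring

theorem ip_hasDerivAt (a : V) (t : ℝ) (y : V) :
    HasDerivAt (fun t : ℝ => ⟪y - t • a, a⟫) (-‖a‖ ^ 2) t := by
  have h1 : HasDerivAt (fun t : ℝ => ⟪y, a⟫ - t * ⟪a, a⟫) (-(1 * ⟪a, a⟫)) t :=
    ((hasDerivAt_id t).mul_const _).const_sub _
  rw [one_mul, real_inner_self_eq_norm_sq] at h1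
  refine (h1.congr_of_eventuallyEq (Eventually.of_forall fun s => ?_))
  simp only [inner_sub_left, inner_smul_left, real_inner_self_eq_norm_sq]
  simp

theorem ee_le (a : V) {t : ℝ} (ht : |t| ≤ 1) (y : V) :
    ee a t y ≤ Real.exp (‖a‖ ^ 2 / 2) * Real.exp (-‖y‖ ^ 2 / 4) := by
  unfold ee
  rw [← Real.exp_add]
  refine Real.exp_le_exp.2 ?_
  have h1 : ‖y‖ - ‖a‖ ≤ ‖y - t • a‖ := by
    have h2 : ‖t • a‖ ≤ ‖a‖ := by
      rw [norm_smul, Real.norm_eq_abs]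
      exact mul_le_of_le_one_left (norm_nonneg _) ht
    have h3 := norm_sub_norm_le y (t • a)
    linarith
  have h4 : ‖y‖ ^ 2 / 2 - ‖a‖ ^ 2 ≤ ‖y - t • a‖ ^ 2 := by
    by_cases hc : ‖a‖ ≤ ‖y‖
    · have h5 : (‖y‖ - ‖a‖) ^ 2 ≤ ‖y - t • a‖ ^ 2 := pow_le_pow_left₀ (by linarith) h1 2
      nlinarith [sq_nonneg (‖y‖ - 2 * ‖a‖)]
    · push Not at hc
      nlinarith [norm_nonneg y, norm_nonneg a, sq_nonneg ‖y - t • a‖]
  linarith

theorem ip_le (a : V) {t : ℝ} (ht : |t| ≤ 1) (y : V) :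
    |⟪y - t • a, a⟫| ≤ (‖a‖ * (1 + ‖a‖)) * (1 + ‖y‖) := by
  have h2 : ‖t • a‖ ≤ ‖a‖ := by
    rw [norm_smul, Real.norm_eq_abs]
    exact mul_le_of_le_one_left (norm_nonneg _) ht
  have h3 : ‖y - t • a‖ ≤ ‖y‖ + ‖a‖ := (norm_sub_le _ _).trans (by linarith)
  refine (abs_real_inner_le_norm _ _).trans ?_
  have h4 : ‖y‖ + ‖a‖ ≤ (1 + ‖a‖) * (1 + ‖y‖) := by
    nlinarith [norm_nonneg y, norm_nonneg a, mul_nonneg (norm_nonneg y) (norm_nonneg a)]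
  calc ‖y - t • a‖ * ‖a‖ ≤ ((1 + ‖a‖) * (1 + ‖y‖)) * ‖a‖ :=
        mul_le_mul_of_nonneg_right (h3.trans h4) (norm_nonneg _)
    _ = _ := by ring

variable {w b q : V → ℝ} {κ : ℝ}

/-- time derivative of `U` -/
noncomputable def Ud (b q : V → ℝ) (κ t : ℝ) (y : V) : ℝ := b y - t * (q y + κ)

omit [NormedAddCommGroup V] [InnerProductSpace ℝ V] in
theorem U_dt (w b q : V → ℝ) (κ t : ℝ) (y : V) :
    HasDerivAt (fun t => U w b q κ t y) (Ud b q κ t y) t := by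
  have h1 : HasDerivAt (fun t : ℝ => w y + t * b y) (1 * b y) t :=
    ((hasDerivAt_id t).mul_const _).const_add _
  have h2 : HasDerivAt (fun t : ℝ => t ^ 2 / 2 * (q y + κ)) (t * (q y + κ)) t := by
    refine (((hasDerivAt_pow 2 t).div_const 2).mul_const (q y + κ)).congr_deriv ?_
    norm_num
  refine (h1.sub h2).congr_deriv ?_
  unfold Ud; ring

omit [NormedAddCommGroup V] [InnerProductSpace ℝ V] in
theorem Ud_dt (b q : V → ℝ) (κ t : ℝ) (y : V) :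
    HasDerivAt (fun t => Ud b q κ t y) (-(q y + κ)) t := by
  have h2 : HasDerivAt (fun t : ℝ => b y - t * (q y + κ)) (-(1 * (q y + κ))) t :=
    ((hasDerivAt_id t).mul_const _).const_sub _
  rw [one_mul] at h2
  exact h2

noncomputable def F0 (w b q : V → ℝ) (κ : ℝ) (a : V) (t : ℝ) (y : V) : ℝ :=
  Ehr.Phi (U w b q κ t y) * ee a t y

noncomputable def F1 (w b q : V → ℝ) (κ : ℝ) (a : V) (t : ℝ) (y : V) : ℝ :=
  Ehr.phi (U w b q κ t y) * Ud b q κ t y * ee a t y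
    + Ehr.Phi (U w b q κ t y) * (ee a t y * ⟪y - t • a, a⟫)

noncomputable def F2 (w b q : V → ℝ) (κ : ℝ) (a : V) (t : ℝ) (y : V) : ℝ :=
  (-(U w b q κ t y * Ehr.phi (U w b q κ t y)) * Ud b q κ t y ^ 2
    - Ehr.phi (U w b q κ t y) * (q y + κ)
    + 2 * (Ehr.phi (U w b q κ t y) * Ud b q κ t y * ⟪y - t • a, a⟫)
    + Ehr.Phi (U w b q κ t y) * (⟪y - t • a, a⟫ ^ 2 - ‖a‖ ^ 2)) * ee a t y

theorem F0_dt (w b q : V → ℝ) (κ : ℝ) (a : V) (t : ℝ) (y : V) :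
    HasDerivAt (fun t => F0 w b q κ a t y) (F1 w b q κ a t y) t := by
  have h1 : HasDerivAt (fun t => Ehr.Phi (U w b q κ t y))
      (Ehr.phi (U w b q κ t y) * Ud b q κ t y) t :=
    (Ehr.Phi_hasDerivAt _).comp t (U_dt w b q κ t y)
  exact h1.mul (ee_hasDerivAt a t y)

theorem F1_dt (w b q : V → ℝ) (κ : ℝ) (a : V) (t : ℝ) (y : V) :
    HasDerivAt (fun t => F1 w b q κ a t y) (F2 w b q κ a t y) t := by
  have h1 : HasDerivAt (fun t => Ehr.Phi (U w b q κ t y))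
      (Ehr.phi (U w b q κ t y) * Ud b q κ t y) t :=
    (Ehr.Phi_hasDerivAt _).comp t (U_dt w b q κ t y)
  have h2 : HasDerivAt (fun t => Ehr.phi (U w b q κ t y))
      (-(U w b q κ t y * Ehr.phi (U w b q κ t y)) * Ud b q κ t y) t :=
    (Ehr.phi_hasDerivAt _).comp t (U_dt w b q κ t y)
  have h3 := (h2.mul (Ud_dt b q κ t y)).mul (ee_hasDerivAt a t y)
  have h4 := h1.mul ((ee_hasDerivAt a t y).mul (ip_hasDerivAt a t y))
  refine (h3.add h4).congr_deriv ?_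
  unfold F2
  simp only [Pi.mul_apply]
  ring

/-- polynomial times Gaussian -/
theorem poly_gauss (n : ℝ) (_hn : 0 ≤ n) :
    (1 + n) ^ 2 * Real.exp (-n ^ 2 / 4) ≤ 18 * Real.exp (-(1 / 8) * n ^ 2) := by
  have h1 : n ^ 2 / 8 + 1 ≤ Real.exp (n ^ 2 / 8) := Real.add_one_le_exp _
  have h2 : (1 + n) ^ 2 ≤ 18 * Real.exp (n ^ 2 / 8) := by nlinarith [sq_nonneg (n - 1)]
  calc (1 + n) ^ 2 * Real.exp (-n ^ 2 / 4)
      ≤ (18 * Real.exp (n ^ 2 / 8)) * Real.exp (-n ^ 2 / 4) :=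
        mul_le_mul_of_nonneg_right h2 (Real.exp_pos _).le
    _ = 18 * Real.exp (-(1 / 8) * n ^ 2) := by
        rw [mul_assoc, ← Real.exp_add]
        congr 2
        ring

theorem gauss_integrable [FiniteDimensional ℝ V] [MeasurableSpace V] [BorelSpace V] :
    Integrable (fun y : V => Real.exp (-(1 / 8) * ‖y‖ ^ 2)) := by
  have h := (GaussianFourier.integrable_cexp_neg_mul_sq_norm_add (V := V) (b := 1 / 8)
    (by norm_num) 0 0).norm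
  refine h.congr (Eventually.of_forall fun y => ?_)
  simp only [zero_mul, add_zero, Complex.norm_exp]
  congr 1
  have e : (-(1 / 8 : ℂ) * (‖y‖ : ℂ) ^ 2) = ((-(1 / 8) * ‖y‖ ^ 2 : ℝ) : ℂ) := by
    push_cast; ring
  rw [e, Complex.ofReal_re]

theorem F1_bound {a : V} {t C : ℝ} (ht : |t| ≤ 1) {y : V} (hC : |Ud b q κ t y| ≤ C) :
    |F1 w b q κ a t y| ≤ (C + ‖a‖ * (1 + ‖a‖)) * (18 * Real.exp (‖a‖ ^ 2 / 2))
      * Real.exp (-(1 / 8) * ‖y‖ ^ 2) := by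
  have hC0 : 0 ≤ C := (abs_nonneg _).trans hC
  have hip := ip_le a ht y
  have hee := ee_le a ht y
  have h1 : |F1 w b q κ a t y| ≤ (C + (‖a‖ * (1 + ‖a‖)) * (1 + ‖y‖)) * ee a t y := by
    have e : F1 w b q κ a t y = (Ehr.phi (U w b q κ t y) * Ud b q κ t y
        + Ehr.Phi (U w b q κ t y) * ⟪y - t • a, a⟫) * ee a t y := by unfold F1; ring
    rw [e, abs_mul, abs_of_pos (ee_pos a t y)]
    refine mul_le_mul_of_nonneg_right ((abs_add_le _ _).trans (add_le_add ?_ ?_)) (ee_pos _ _ _).le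
    · rw [abs_mul, abs_of_pos (Ehr.phi_pos _)]
      calc Ehr.phi (U w b q κ t y) * |Ud b q κ t y| ≤ 1 * C :=
            mul_le_mul (phi_le _) hC (abs_nonneg _) zero_le_one
        _ = C := one_mul C
    · rw [abs_mul, abs_of_pos (Ehr.Phi_pos _)]
      calc Ehr.Phi (U w b q κ t y) * |⟪y - t • a, a⟫| ≤ 1 * |⟪y - t • a, a⟫| :=
            mul_le_mul_of_nonneg_right (Ehr.Phi_lt_one _).le (abs_nonneg _)
        _ ≤ _ := by rw [one_mul]; exact hip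
  have h2 : C + (‖a‖ * (1 + ‖a‖)) * (1 + ‖y‖) ≤ (C + ‖a‖ * (1 + ‖a‖)) * (1 + ‖y‖) ^ 2 := by
    have h3 : (1 : ℝ) ≤ 1 + ‖y‖ := by linarith [norm_nonneg y]
    have h4 : 1 + ‖y‖ ≤ (1 + ‖y‖) ^ 2 := by nlinarith [norm_nonneg y]
    have h5 := mul_le_mul_of_nonneg_left (h3.trans h4) hC0
    have h6 := mul_le_mul_of_nonneg_left h4
      (by positivity : 0 ≤ ‖a‖ * (1 + ‖a‖))
    linarith
  calc |F1 w b q κ a t y| ≤ (C + (‖a‖ * (1 + ‖a‖)) * (1 + ‖y‖)) * ee a t y := h1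
    _ ≤ ((C + ‖a‖ * (1 + ‖a‖)) * (1 + ‖y‖) ^ 2)
          * (Real.exp (‖a‖ ^ 2 / 2) * Real.exp (-‖y‖ ^ 2 / 4)) :=
        mul_le_mul h2 hee (ee_pos _ _ _).le (by positivity)
    _ = ((C + ‖a‖ * (1 + ‖a‖)) * Real.exp (‖a‖ ^ 2 / 2))
          * ((1 + ‖y‖) ^ 2 * Real.exp (-‖y‖ ^ 2 / 4)) := by ring
    _ ≤ ((C + ‖a‖ * (1 + ‖a‖)) * Real.exp (‖a‖ ^ 2 / 2))
          * (18 * Real.exp (-(1 / 8) * ‖y‖ ^ 2)) :=
        mul_le_mul_of_nonneg_left (poly_gauss _ (norm_nonneg y)) (by positivity)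
    _ = _ := by ring

theorem F2_core {C K A n i ph P u d Q : ℝ} (hC0 : 0 ≤ C) (hK : 0 ≤ K) (hA : 0 ≤ A)
    (hn : 0 ≤ n) (hd : |d| ≤ C) (hQ : |Q| ≤ K) (hi : |i| ≤ A * (1 + n)) (hph0 : 0 < ph)
    (hph : ph ≤ 1) (hu : |u| * ph ≤ 1) (hP0 : 0 < P) (hP1 : P < 1) (a2 : ℝ) (ha2 : 0 ≤ a2) :
    |-(u * ph) * d ^ 2 - ph * Q + 2 * (ph * d * i) + P * (i ^ 2 - a2)|
      ≤ (C ^ 2 + K + 2 * C * A + A ^ 2 + a2) * (1 + n) ^ 2 := by
  have h1 : |-(u * ph) * d ^ 2| ≤ C ^ 2 := by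
    rw [abs_mul, abs_neg, abs_mul, abs_of_pos hph0, abs_pow]
    calc |u| * ph * |d| ^ 2 ≤ 1 * C ^ 2 :=
          mul_le_mul hu (pow_le_pow_left₀ (abs_nonneg _) hd 2) (by positivity) zero_le_one
      _ = C ^ 2 := one_mul _
  have h2 : |ph * Q| ≤ K := by
    rw [abs_mul, abs_of_pos hph0]
    calc ph * |Q| ≤ 1 * K := mul_le_mul hph hQ (abs_nonneg _) zero_le_one
      _ = K := one_mul _
  have h3 : |2 * (ph * d * i)| ≤ 2 * C * A * (1 + n) := by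
    rw [abs_mul, abs_mul, abs_mul, abs_two, abs_of_pos hph0]
    have h4 : ph * |d| ≤ 1 * C := mul_le_mul hph hd (abs_nonneg _) zero_le_one
    have h5 : ph * |d| * |i| ≤ 1 * C * (A * (1 + n)) :=
      mul_le_mul h4 hi (abs_nonneg _) (by positivity)
    linarith
  have h6 : |P * (i ^ 2 - a2)| ≤ A ^ 2 * (1 + n) ^ 2 + a2 := by
    rw [abs_mul, abs_of_pos hP0]
    have h7 : |i ^ 2 - a2| ≤ A ^ 2 * (1 + n) ^ 2 + a2 := by
      have h8 : i ^ 2 ≤ (A * (1 + n)) ^ 2 := by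
        rw [← sq_abs]; exact pow_le_pow_left₀ (abs_nonneg _) hi 2
      rw [abs_le]
      constructor
      · have : 0 ≤ i ^ 2 := sq_nonneg i
        have : 0 ≤ A ^ 2 * (1 + n) ^ 2 := by positivity
        linarith
      · rw [mul_pow] at h8
        linarith
    calc P * |i ^ 2 - a2| ≤ 1 * |i ^ 2 - a2| :=
          mul_le_mul_of_nonneg_right hP1.le (abs_nonneg _)
      _ ≤ _ := by rw [one_mul]; exact h7
  have h9 : |-(u * ph) * d ^ 2 - ph * Q + 2 * (ph * d * i) + P * (i ^ 2 - a2)|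
      ≤ C ^ 2 + K + 2 * C * A * (1 + n) + (A ^ 2 * (1 + n) ^ 2 + a2) := by
    refine (abs_add_le _ _).trans (add_le_add ?_ h6)
    refine (abs_add_le _ _).trans (add_le_add ?_ h3)
    exact (abs_sub _ _).trans (add_le_add h1 h2)
  have h10 : (1 : ℝ) ≤ (1 + n) ^ 2 := by nlinarith
  have h11 : 1 + n ≤ (1 + n) ^ 2 := by nlinarith
  have h12 : 0 ≤ C ^ 2 + K + a2 := by positivity
  have h13 := mul_le_mul_of_nonneg_left h10 h12
  have h14 := mul_le_mul_of_nonneg_left h11 (by positivity : 0 ≤ 2 * C * A)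
  linarith

theorem F2_bound {a : V} {t C K : ℝ} (ht : |t| ≤ 1) {y : V} (hC : |Ud b q κ t y| ≤ C)
    (hK : |q y + κ| ≤ K) :
    |F2 w b q κ a t y| ≤ (C ^ 2 + K + 2 * C * (‖a‖ * (1 + ‖a‖)) + (‖a‖ * (1 + ‖a‖)) ^ 2 + ‖a‖ ^ 2)
      * (18 * Real.exp (‖a‖ ^ 2 / 2)) * Real.exp (-(1 / 8) * ‖y‖ ^ 2) := by
  have hC0 : 0 ≤ C := (abs_nonneg _).trans hC
  have hK0 : 0 ≤ K := (abs_nonneg _).trans hK
  have hA : 0 ≤ ‖a‖ * (1 + ‖a‖) := by positivity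
  have hee := ee_le a ht y
  have hcore := F2_core hC0 hK0 hA (norm_nonneg y) hC hK (ip_le a ht y)
    (Ehr.phi_pos (U w b q κ t y)) (phi_le _) (abs_mul_phi_le _)
    (Ehr.Phi_pos (U w b q κ t y)) (Ehr.Phi_lt_one _) (‖a‖ ^ 2) (sq_nonneg _)
  have hM : 0 ≤ C ^ 2 + K + 2 * C * (‖a‖ * (1 + ‖a‖)) + (‖a‖ * (1 + ‖a‖)) ^ 2 + ‖a‖ ^ 2 := by
    positivity
  rw [F2, abs_mul, abs_of_pos (ee_pos a t y)]
  set M := C ^ 2 + K + 2 * C * (‖a‖ * (1 + ‖a‖)) + (‖a‖ * (1 + ‖a‖)) ^ 2 + ‖a‖ ^ 2 with hMdef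
  calc _ ≤ (M * (1 + ‖y‖) ^ 2) * (Real.exp (‖a‖ ^ 2 / 2) * Real.exp (-‖y‖ ^ 2 / 4)) :=
        mul_le_mul hcore hee (ee_pos _ _ _).le (by positivity)
    _ = (M * Real.exp (‖a‖ ^ 2 / 2)) * ((1 + ‖y‖) ^ 2 * Real.exp (-‖y‖ ^ 2 / 4)) := by ring
    _ ≤ (M * Real.exp (‖a‖ ^ 2 / 2)) * (18 * Real.exp (-(1 / 8) * ‖y‖ ^ 2)) :=
        mul_le_mul_of_nonneg_left (poly_gauss _ (norm_nonneg y)) (by positivity)
    _ = _ := by ring

end Vale.Agent.P262.JC
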