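import Vale.Agent.P262.H889.JC4

/-!
[J-C], part 5: the second variation of Ehrhard's inequality.
-/

open MeasureTheory ProbabilityTheory Set Filter Topology
open scoped RealInnerProductSpace

namespace Vale.Agent.P262.JC

/-- local second derivative test at a maximum -/
theorem second_deriv_max {g g' : ℝ → ℝ} {c r : ℝ} (hr : 0 < r)
    (hg : ∀ s, |s| < r → HasDerivAt g (g' s) s) (hc : HasDerivAt g' c 0)
    (hmax : ∀ s, |s| < r → g s ≤ g 0) : c ≤ 0 := by
  have h0 : g' 0 = 0 := by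
    have hl : IsLocalMax g 0 := by
      have : Metric.ball (0 : ℝ) r ∈ 𝓝 (0 : ℝ) := Metric.ball_mem_nhds 0 hr
      filter_upwards [this] with s hs
      rw [Metric.mem_ball, Real.dist_eq, sub_zero] at hs
      exact hmax s hs
    exact hl.hasDerivAt_eq_zero (hg 0 (by simpa using hr))
  by_contra hneg
  push Not at hneg
  have h1 := hc.tendsto_slope
  have h2 : ∀ᶠ s in 𝓝[>] (0 : ℝ), 0 < slope g' 0 s :=
    (h1.mono_left (nhdsWithin_mono 0 fun s hs => (ne_of_gt hs))).eventually (lt_mem_nhds hneg)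
  obtain ⟨η, hη, hη2⟩ := (mem_nhdsGT_iff_exists_Ioo_subset).1 h2
  have hη' : (0 : ℝ) < η := hη
  have hm : 0 < min η r := lt_min hη' hr
  obtain ⟨ξ, hξ, hξ2⟩ := exists_hasDerivAt_eq_slope g g' (show (0 : ℝ) < min η r / 2 by linarith)
    (fun x hx => (hg x (by
      rw [abs_of_nonneg hx.1]
      linarith [hx.2, min_le_right η r])).continuousAt.continuousWithinAt)
    (fun x hx => hg x (by
      rw [abs_of_pos hx.1]
      linarith [hx.2, min_le_right η r]))
  have h3 : 0 < slope g' 0 ξ := hη2 ⟨hξ.1, by linarith [hξ.2, min_le_left η r]⟩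
  rw [slope_def_field, h0, sub_zero, sub_zero] at h3
  have h4 : 0 < g' ξ := by
    rcases div_pos_iff.1 h3 with h | h
    · exact h.1
    · linarith [h.2, hξ.1]
  rw [hξ2, sub_zero] at h4
  have h5 : (g (min η r / 2) - g 0) / (min η r / 2) ≤ 0 :=
    div_nonpos_of_nonpos_of_nonneg (by
      have := hmax (min η r / 2) (by
        rw [abs_of_pos (by linarith)]
        linarith [min_le_right η r])
      linarith) (by linarith)
  linarith

variable {k : ℕ} {w b q : EuclideanSpace ℝ (Fin k) → ℝ} {δ κ : ℝ}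

theorem U_cont (h : Dat w b q δ) (κ t : ℝ) : Continuous (U w b q κ t) := by
  unfold U
  have c1 := h.hw.continuous
  have c2 := h.hb.continuous
  have c3 := h.hq.continuous
  fun_prop

theorem Ud_cont (h : Dat w b q δ) (κ t : ℝ) : Continuous (Ud b q κ t) := by
  unfold Ud
  have c2 := h.hb.continuous
  have c3 := h.hq.continuous
  fun_prop

theorem ee_cont (a : EuclideanSpace ℝ (Fin k)) (t : ℝ) : Continuous (ee a t) := by
  unfold ee; fun_prop

theorem F0_cont (h : Dat w b q δ) (κ : ℝ) (a : EuclideanSpace ℝ (Fin k)) (t : ℝ) :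
    Continuous (F0 w b q κ a t) :=
  (Ehr.Phi_continuous.comp (U_cont h κ t)).mul (ee_cont a t)

theorem F1_cont (h : Dat w b q δ) (κ : ℝ) (a : EuclideanSpace ℝ (Fin k)) (t : ℝ) :
    Continuous (F1 w b q κ a t) := by
  have c1 := Ehr.Phi_continuous.comp (U_cont h κ t)
  have c2 := Ehr.phi_continuous.comp (U_cont h κ t)
  have c3 := Ud_cont h κ t
  have c4 := ee_cont a t
  have c5 : Continuous fun y : EuclideanSpace ℝ (Fin k) => ⟪y - t • a, a⟫ := by fun_prop
  exact ((c2.mul c3).mul c4).add (c1.mul (c4.mul c5))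

theorem F2_cont (h : Dat w b q δ) (κ : ℝ) (a : EuclideanSpace ℝ (Fin k)) (t : ℝ) :
    Continuous (F2 w b q κ a t) := by
  have c0 := U_cont h κ t
  have c1 := Ehr.Phi_continuous.comp c0
  have c2 := Ehr.phi_continuous.comp c0
  have c3 := Ud_cont h κ t
  have c4 := ee_cont a t
  have c5 : Continuous fun y : EuclideanSpace ℝ (Fin k) => ⟪y - t • a, a⟫ := by fun_prop
  have c6 := h.hq.continuous
  exact ((((c0.mul c2).neg.mul (c3.pow 2)).sub (c2.mul (c6.add continuous_const))).add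
    (continuous_const.mul ((c2.mul c3).mul c5)) |>.add (c1.mul ((c5.pow 2).sub
      continuous_const))).mul c4

theorem Ud_bound (h : Dat w b q δ) (κ : ℝ) : ∃ C K : ℝ, (∀ t y, |t| ≤ 1 → |Ud b q κ t y| ≤ C) ∧
    ∀ y, |q y + κ| ≤ K := by
  obtain ⟨Cb, hCb0, hCb⟩ := bound_of_compact h.hb.continuous h.cb
  obtain ⟨Cq, hCq0, hCq⟩ := bound_of_compact h.hq.continuous h.cq
  have hK : ∀ y, |q y + κ| ≤ Cq + |κ| := fun y =>
    (abs_add_le _ _).trans (add_le_add (hCq y) le_rfl)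
  refine ⟨Cb + (Cq + |κ|), Cq + |κ|, fun t y ht => ?_, hK⟩
  unfold Ud
  refine (abs_sub _ _).trans (add_le_add (hCb y) ?_)
  rw [abs_mul]
  calc |t| * |q y + κ| ≤ 1 * (Cq + |κ|) := mul_le_mul ht (hK y) (abs_nonneg _) zero_le_one
    _ = _ := one_mul _

theorem NN_eq_F0 (a : EuclideanSpace ℝ (Fin k)) (t : ℝ) :
    NN w b q κ a t = ∫ y, F0 w b q κ a t y := rfl

theorem F0_integrable (h : Dat w b q δ) (a : EuclideanSpace ℝ (Fin k)) {t : ℝ} (ht : |t| ≤ 1) :
    Integrable (F0 w b q κ a t) := by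
  refine (gauss_integrable.const_mul (18 * Real.exp (‖a‖ ^ 2 / 2))).mono'
    (F0_cont h κ a t).aestronglyMeasurable (Eventually.of_forall fun y => ?_)
  rw [Real.norm_eq_abs]
  have h1 : |F0 w b q κ a t y| ≤ ee a t y := by
    unfold F0
    rw [abs_mul, abs_of_pos (Ehr.Phi_pos _), abs_of_pos (ee_pos _ _ _)]
    exact mul_le_of_le_one_left (ee_pos _ _ _).le (Ehr.Phi_lt_one _).le
  refine h1.trans ((ee_le a ht y).trans ?_)
  have h2 := poly_gauss ‖y‖ (norm_nonneg y)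
  have h3 : Real.exp (-‖y‖ ^ 2 / 4) ≤ 18 * Real.exp (-(1 / 8) * ‖y‖ ^ 2) := by
    refine le_trans ?_ h2
    have h4 : (1 : ℝ) ≤ (1 + ‖y‖) ^ 2 := by nlinarith [norm_nonneg y]
    exact le_mul_of_one_le_left (Real.exp_pos _).le h4
  calc Real.exp (‖a‖ ^ 2 / 2) * Real.exp (-‖y‖ ^ 2 / 4)
      ≤ Real.exp (‖a‖ ^ 2 / 2) * (18 * Real.exp (-(1 / 8) * ‖y‖ ^ 2)) :=
        mul_le_mul_of_nonneg_left h3 (Real.exp_pos _).le
    _ = _ := by ring

theorem F1_integrable (h : Dat w b q δ) (a : EuclideanSpace ℝ (Fin k)) {t : ℝ} (ht : |t| ≤ 1) :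
    Integrable (F1 w b q κ a t) := by
  obtain ⟨C, K, hC, hK⟩ := Ud_bound h κ
  refine (gauss_integrable.const_mul ((C + ‖a‖ * (1 + ‖a‖)) * (18 * Real.exp (‖a‖ ^ 2 / 2)))).mono'
    (F1_cont h κ a t).aestronglyMeasurable (Eventually.of_forall fun y => ?_)
  rw [Real.norm_eq_abs]
  exact F1_bound ht (hC t y ht)

theorem F2_integrable (h : Dat w b q δ) (a : EuclideanSpace ℝ (Fin k)) {t : ℝ} (ht : |t| ≤ 1) :
    Integrable (F2 w b q κ a t) := by
  obtain ⟨C, K, hC, hK⟩ := Ud_bound h κ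
  refine (gauss_integrable.const_mul ((C ^ 2 + K + 2 * C * (‖a‖ * (1 + ‖a‖))
    + (‖a‖ * (1 + ‖a‖)) ^ 2 + ‖a‖ ^ 2) * (18 * Real.exp (‖a‖ ^ 2 / 2)))).mono'
    (F2_cont h κ a t).aestronglyMeasurable (Eventually.of_forall fun y => ?_)
  rw [Real.norm_eq_abs]
  exact F2_bound ht (hC t y ht) (hK y)

theorem NN_dt (h : Dat w b q δ) (a : EuclideanSpace ℝ (Fin k)) {t : ℝ} (ht : |t| < 1) :
    HasDerivAt (NN w b q κ a) (∫ y, F1 w b q κ a t y) t := by
  obtain ⟨C, K, hC, hK⟩ := Ud_bound h κ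
  have hs : {s : ℝ | |s| < 1} ∈ 𝓝 t := (isOpen_lt continuous_abs continuous_const).mem_nhds ht
  exact (hasDerivAt_integral_of_dominated_loc_of_deriv_le (F := fun t y => F0 w b q κ a t y)
    (F' := fun t y => F1 w b q κ a t y) (s := {s : ℝ | |s| < 1})
    (bound := fun y => ((C + ‖a‖ * (1 + ‖a‖)) * (18 * Real.exp (‖a‖ ^ 2 / 2)))
      * Real.exp (-(1 / 8) * ‖y‖ ^ 2)) hs
    (Eventually.of_forall fun s => (F0_cont h κ a s).aestronglyMeasurable)
    (F0_integrable h a ht.le) (F1_cont h κ a t).aestronglyMeasurable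
    (Eventually.of_forall fun y s hs => by
      rw [Real.norm_eq_abs]
      exact F1_bound (le_of_lt hs) (hC s y (le_of_lt hs)))
    (gauss_integrable.const_mul _)
    (Eventually.of_forall fun y s _ => F0_dt w b q κ a s y)).2

theorem N1_dt (h : Dat w b q δ) (a : EuclideanSpace ℝ (Fin k)) :
    HasDerivAt (fun t => ∫ y, F1 w b q κ a t y) (∫ y, F2 w b q κ a 0 y) 0 := by
  obtain ⟨C, K, hC, hK⟩ := Ud_bound h κ
  have hs : {s : ℝ | |s| < 1} ∈ 𝓝 (0 : ℝ) :=
    (isOpen_lt continuous_abs continuous_const).mem_nhds (by simp)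
  exact (hasDerivAt_integral_of_dominated_loc_of_deriv_le (F := fun t y => F1 w b q κ a t y)
    (F' := fun t y => F2 w b q κ a t y) (s := {s : ℝ | |s| < 1})
    (bound := fun y => ((C ^ 2 + K + 2 * C * (‖a‖ * (1 + ‖a‖)) + (‖a‖ * (1 + ‖a‖)) ^ 2 + ‖a‖ ^ 2)
      * (18 * Real.exp (‖a‖ ^ 2 / 2))) * Real.exp (-(1 / 8) * ‖y‖ ^ 2)) hs
    (Eventually.of_forall fun s => (F1_cont h κ a s).aestronglyMeasurable)
    (F1_integrable h a (by simp)) (F2_cont h κ a 0).aestronglyMeasurable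
    (Eventually.of_forall fun y s hs => by
      rw [Real.norm_eq_abs]
      exact F2_bound (le_of_lt hs) (hC s y (le_of_lt hs)) (hK y))
    (gauss_integrable.const_mul _)
    (Eventually.of_forall fun y s _ => F1_dt w b q κ a s y)).2

/-- the second variation is nonpositive -/
theorem F2_nonpos (h : Dat w b q δ) (hκ : 0 < κ) (a : EuclideanSpace ℝ (Fin k))
    (hhalf : 1 / 2 ≤ ∫ g, Ehr.Phi (w (WithLp.toLp 2 g)) ∂(Ehr.gam k)) :
    ∫ y, F2 w b q κ a 0 y ≤ 0 := by
  obtain ⟨t0, ht0, hsym⟩ := NN_symm h hκ a hhalf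
  have hneg : ∀ s : ℝ, HasDerivAt (fun s : ℝ => -s) (-1) s := fun s => hasDerivAt_neg s
  have h1 : ∀ s : ℝ, |s| < min t0 1 → HasDerivAt (fun s => NN w b q κ a s + NN w b q κ a (-s))
      ((∫ y, F1 w b q κ a s y) + (∫ y, F1 w b q κ a (-s) y) * (-1)) s := by
    intro s hs
    have hs1 : |s| < 1 := hs.trans_le (min_le_right _ _)
    have hs2 : |(-s)| < 1 := by rwa [abs_neg]
    exact (NN_dt h a hs1).add ((NN_dt h a hs2).comp s (hneg s))
  have h2 : HasDerivAt (fun s => (∫ y, F1 w b q κ a s y) + (∫ y, F1 w b q κ a (-s) y) * (-1))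
      ((∫ y, F2 w b q κ a 0 y) + ((∫ y, F2 w b q κ a 0 y) * (-1)) * (-1)) 0 := by
    have h3 := N1_dt (κ := κ) h a
    have h4 : HasDerivAt (fun t => ∫ y, F1 w b q κ a t y) (∫ y, F2 w b q κ a 0 y) (-0) := by
      rw [neg_zero]; exact h3
    exact h3.add ((h4.comp 0 (hneg 0)).mul_const (-1))
  have h5 := second_deriv_max (r := min t0 1) (lt_min ht0 one_pos) h1 h2 (by
    intro s hs
    have := hsym s (hs.le.trans (min_le_left _ _))
    simp only [neg_zero]
    linarith)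
  linarith

end Vale.Agent.P262.JC
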