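import Vale.Agent.P262.H889.JC5

/-!
[J-C], part 6: final form (SC) and its vector form.
-/

open MeasureTheory ProbabilityTheory Set Filter Topology
open scoped RealInnerProductSpace

namespace Vale.Agent.P262.JC

variable {k : ℕ}

/-- the weight `exp (-(w^2 + |x|^2)/2)` -/
noncomputable def rho (w : EuclideanSpace ℝ (Fin k) → ℝ) (x : EuclideanSpace ℝ (Fin k)) : ℝ :=
  Real.exp (-(w x ^ 2 + ‖x‖ ^ 2) / 2)

/-- the Gaussian weight `exp (-|x|^2/2)` -/
noncomputable def gw (x : EuclideanSpace ℝ (Fin k)) : ℝ := Real.exp (-‖x‖ ^ 2 / 2)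

theorem ee_zero (a x : EuclideanSpace ℝ (Fin k)) : ee a 0 x = gw x := by simp [ee, gw]

theorem phi_mul_gw (w : EuclideanSpace ℝ (Fin k) → ℝ) (x : EuclideanSpace ℝ (Fin k)) :
    Ehr.phi (w x) * gw x = (Real.sqrt (2 * Real.pi))⁻¹ * rho w x := by
  rw [phi_eq, gw, rho, mul_assoc, ← Real.exp_add]
  congr 2
  ring

theorem gw_le (x : EuclideanSpace ℝ (Fin k)) :
    (1 + ‖x‖) ^ 2 * gw x ≤ 18 * Real.exp (-(1 / 8) * ‖x‖ ^ 2) := by
  refine le_trans ?_ (poly_gauss ‖x‖ (norm_nonneg x))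
  refine mul_le_mul_of_nonneg_left (Real.exp_le_exp.2 ?_) (by positivity)
  nlinarith [sq_nonneg ‖x‖]

theorem gw_continuous : Continuous (gw : EuclideanSpace ℝ (Fin k) → ℝ) := by unfold gw; fun_prop

/-- quadratic functions are integrable against the Gaussian weight -/
theorem quad_integrable {F : EuclideanSpace ℝ (Fin k) → ℝ} (hF : AEStronglyMeasurable F)
    {C : ℝ} (hb : ∀ x, |F x| ≤ C * (1 + ‖x‖) ^ 2) : Integrable fun x => F x * gw x := by
  have hC : 0 ≤ C := by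
    have h := (abs_nonneg _).trans (hb 0)
    simpa using h
  refine (gauss_integrable.const_mul (C * 18)).mono'
    (hF.mul gw_continuous.aestronglyMeasurable) (Eventually.of_forall fun x => ?_)
  rw [Real.norm_eq_abs, abs_mul, abs_of_pos (show 0 < gw x from Real.exp_pos _)]
  calc |F x| * gw x ≤ (C * (1 + ‖x‖) ^ 2) * gw x :=
        mul_le_mul_of_nonneg_right (hb x) (Real.exp_pos _).le
    _ = C * ((1 + ‖x‖) ^ 2 * gw x) := by ring
    _ ≤ C * (18 * Real.exp (-(1 / 8) * ‖x‖ ^ 2)) := mul_le_mul_of_nonneg_left (gw_le x) hC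
    _ = _ := by ring

variable {w b q : EuclideanSpace ℝ (Fin k) → ℝ} {δ : ℝ}

theorem main_integrable1 (h : Dat w b q δ) :
    Integrable fun x => (w x * b x ^ 2 + q x) * rho w x := by
  have c1 := h.hw.continuous
  have c2 := h.hb.continuous
  have c3 := h.hq.continuous
  have cr : Continuous (rho w) := by unfold rho; fun_prop
  refine Continuous.integrable_of_hasCompactSupport (((c1.mul (c2.pow 2)).add c3).mul cr) ?_
  have h1 : HasCompactSupport fun x => w x * b x ^ 2 := by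
    have e : (fun x => w x * b x ^ 2) = fun x => (w x * b x) * b x := by funext x; ring
    rw [e]
    exact h.cb.mul_left
  exact (h1.add h.cq).mul_right

theorem main_integrable2 (h : Dat w b q δ) (a : EuclideanSpace ℝ (Fin k)) :
    Integrable fun x => ⟪a, x⟫ * b x * rho w x := by
  have c1 := h.hw.continuous
  have c2 := h.hb.continuous
  have cr : Continuous (rho w) := by unfold rho; fun_prop
  have ci : Continuous fun x : EuclideanSpace ℝ (Fin k) => ⟪a, x⟫ := by fun_prop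
  refine Continuous.integrable_of_hasCompactSupport ((ci.mul c2).mul cr) ?_
  exact (h.cb.mul_left).mul_right

theorem inner_sq_bound (a x : EuclideanSpace ℝ (Fin k)) :
    |‖a‖ ^ 2 - ⟪a, x⟫ ^ 2| ≤ ‖a‖ ^ 2 * (1 + ‖x‖) ^ 2 := by
  have h1 : ⟪a, x⟫ ^ 2 ≤ ‖a‖ ^ 2 * ‖x‖ ^ 2 := by
    have h := abs_real_inner_le_norm a x
    calc ⟪a, x⟫ ^ 2 = |⟪a, x⟫| ^ 2 := (sq_abs _).symm
      _ ≤ (‖a‖ * ‖x‖) ^ 2 := pow_le_pow_left₀ (abs_nonneg _) h 2
      _ = _ := by ring
  have h2 : 0 ≤ ⟪a, x⟫ ^ 2 := sq_nonneg _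
  have h3 : 0 ≤ ‖a‖ ^ 2 := sq_nonneg _
  have h4 : 0 ≤ ‖a‖ ^ 2 * ‖x‖ ^ 2 := by positivity
  have h5 : 0 ≤ ‖a‖ ^ 2 * ‖x‖ := by positivity
  rw [abs_le]
  constructor <;> nlinarith

theorem main_integrable3 (hw : Continuous w) (a : EuclideanSpace ℝ (Fin k)) :
    Integrable fun x => Ehr.Phi (w x) * (‖a‖ ^ 2 - ⟪a, x⟫ ^ 2) * gw x := by
  have ci : Continuous fun x : EuclideanSpace ℝ (Fin k) => ⟪a, x⟫ := by fun_prop
  refine quad_integrable (F := fun x => Ehr.Phi (w x) * (‖a‖ ^ 2 - ⟪a, x⟫ ^ 2))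
    (((Ehr.Phi_continuous.comp hw).mul (continuous_const.sub (ci.pow 2))).aestronglyMeasurable)
    (C := ‖a‖ ^ 2) fun x => ?_
  rw [abs_mul, abs_of_pos (Ehr.Phi_pos _)]
  calc Ehr.Phi (w x) * |‖a‖ ^ 2 - ⟪a, x⟫ ^ 2| ≤ 1 * |‖a‖ ^ 2 - ⟪a, x⟫ ^ 2| :=
        mul_le_mul_of_nonneg_right (Ehr.Phi_lt_one _).le (abs_nonneg _)
    _ ≤ _ := by rw [one_mul]; exact inner_sq_bound a x

theorem rho_integrable (hw : Continuous w) : Integrable (rho w) := by
  have h1 := quad_integrable (k := k) (F := fun x => Ehr.phi (w x))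
    (Ehr.phi_continuous.comp hw).aestronglyMeasurable (C := 1) fun x => by
      rw [abs_of_pos (Ehr.phi_pos _)]
      have := phi_le (w x)
      have h2 : (1 : ℝ) ≤ (1 + ‖x‖) ^ 2 := by nlinarith [norm_nonneg x]
      linarith
  have h2 := h1.const_mul (Real.sqrt (2 * Real.pi))
  refine h2.congr (Eventually.of_forall fun x => ?_)
  simp only
  rw [phi_mul_gw, ← mul_assoc, mul_inv_cancel₀ (by positivity), one_mul]

/-- **(SC)**: second variation of Ehrhard's inequality in the direction `b + ⟨a, ∇w⟩`. -/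
theorem SC (h : Dat w b q δ) (a : EuclideanSpace ℝ (Fin k))
    (hhalf : 1 / 2 ≤ ∫ g, Ehr.Phi (w (WithLp.toLp 2 g)) ∂(Ehr.gam k)) :
    2 * ∫ x, ⟪a, x⟫ * b x * rho w x ≤ (∫ x, (w x * b x ^ 2 + q x) * rho w x)
      + Real.sqrt (2 * Real.pi) * ∫ x, Ehr.Phi (w x) * (‖a‖ ^ 2 - ⟪a, x⟫ ^ 2) * gw x := by
  have i1 := main_integrable1 h
  have i2 := main_integrable2 h a
  have i3 := main_integrable3 h.hw.continuous a
  have i4 := rho_integrable h.hw.continuous
  set c : ℝ := Real.sqrt (2 * Real.pi) with hc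
  have hcpos : 0 < c := by rw [hc]; positivity
  have key : ∀ κ : ℝ, 0 < κ → 2 * ∫ x, ⟪a, x⟫ * b x * rho w x
      ≤ (∫ x, (w x * b x ^ 2 + q x) * rho w x)
      + c * (∫ x, Ehr.Phi (w x) * (‖a‖ ^ 2 - ⟪a, x⟫ ^ 2) * gw x) + κ * ∫ x, rho w x := by
    intro κ hκ
    have h0 := F2_nonpos h hκ a hhalf
    have e : ∀ x, F2 w b q κ a 0 x = c⁻¹ * (2 * (⟪a, x⟫ * b x * rho w x)
        - (w x * b x ^ 2 + q x) * rho w x - κ * rho w x)
        - Ehr.Phi (w x) * (‖a‖ ^ 2 - ⟪a, x⟫ ^ 2) * gw x := by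
      intro x
      have e1 : U w b q κ 0 x = w x := by simp [U]
      have e2 : Ud b q κ 0 x = b x := by simp [Ud]
      have e3 : c⁻¹ * rho w x = Ehr.phi (w x) * gw x := (phi_mul_gw w x).symm
      rw [F2, e1, e2, ee_zero, zero_smul, sub_zero, real_inner_comm]
      have e4 : c⁻¹ * (2 * (⟪a, x⟫ * b x * rho w x) - (w x * b x ^ 2 + q x) * rho w x
          - κ * rho w x) = (2 * (⟪a, x⟫ * b x) - (w x * b x ^ 2 + q x) - κ) * (c⁻¹ * rho w x) := by
        ring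
      rw [e4, e3]
      ring
    have e5 : ∫ x, F2 w b q κ a 0 x = c⁻¹ * (2 * (∫ x, ⟪a, x⟫ * b x * rho w x)
        - (∫ x, (w x * b x ^ 2 + q x) * rho w x) - κ * ∫ x, rho w x)
        - ∫ x, Ehr.Phi (w x) * (‖a‖ ^ 2 - ⟪a, x⟫ ^ 2) * gw x := by
      rw [integral_congr_ae (Eventually.of_forall e)]
      have j1 := i2.const_mul 2
      have j2 := i4.const_mul κ
      have j3 : Integrable fun x => 2 * (⟪a, x⟫ * b x * rho w x)
          - (w x * b x ^ 2 + q x) * rho w x := j1.sub i1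
      have j4 : Integrable fun x => 2 * (⟪a, x⟫ * b x * rho w x)
          - (w x * b x ^ 2 + q x) * rho w x - κ * rho w x := j3.sub j2
      have j5 : Integrable fun x => c⁻¹ * (2 * (⟪a, x⟫ * b x * rho w x)
          - (w x * b x ^ 2 + q x) * rho w x - κ * rho w x) := j4.const_mul _
      rw [integral_sub j5 i3, integral_const_mul, integral_sub j3 j2, integral_sub j1 i1,
        integral_const_mul, integral_const_mul]
    rw [e5] at h0
    have h1 : c⁻¹ * (2 * (∫ x, ⟪a, x⟫ * b x * rho w x)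
        - (∫ x, (w x * b x ^ 2 + q x) * rho w x) - κ * ∫ x, rho w x)
        ≤ ∫ x, Ehr.Phi (w x) * (‖a‖ ^ 2 - ⟪a, x⟫ ^ 2) * gw x := by linarith
    rw [inv_mul_le_iff₀ hcpos] at h1
    linarith
  refine le_of_forall_pos_le_add fun ε hε => ?_
  have hI : 0 ≤ ∫ x, rho w x := integral_nonneg fun x => (Real.exp_pos _).le
  have h2 := key (ε / ((∫ x, rho w x) + 1)) (by positivity)
  have h3 : ε / ((∫ x, rho w x) + 1) * ∫ x, rho w x ≤ ε := by
    rw [div_mul_eq_mul_div, div_le_iff₀ (by positivity)]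
    nlinarith
  linarith

/-- vector form of (SC) -/
theorem SC_vec {J : Type*} [Fintype J] {b q : J → EuclideanSpace ℝ (Fin k) → ℝ}
    (h : ∀ j, Dat w (b j) (q j) δ) (hw : Continuous w) (a : J → EuclideanSpace ℝ (Fin k))
    (hhalf : 1 / 2 ≤ ∫ g, Ehr.Phi (w (WithLp.toLp 2 g)) ∂(Ehr.gam k)) :
    2 * ∫ x, (∑ j, ⟪a j, x⟫ * b j x) * rho w x
      ≤ (∫ x, (w x * (∑ j, b j x ^ 2) + ∑ j, q j x) * rho w x)
      + Real.sqrt (2 * Real.pi)
        * ∫ x, Ehr.Phi (w x) * ((∑ j, ‖a j‖ ^ 2) - ∑ j, ⟪a j, x⟫ ^ 2) * gw x := by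
  have hsum := Finset.sum_le_sum (s := Finset.univ) fun j _ => SC (h j) (a j) hhalf
  have e1 : ∫ x, (∑ j, ⟪a j, x⟫ * b j x) * rho w x = ∑ j, ∫ x, ⟪a j, x⟫ * b j x * rho w x := by
    rw [← integral_finsetSum _ fun j _ => main_integrable2 (h j) (a j)]
    refine integral_congr_ae (Eventually.of_forall fun x => ?_)
    simp only [Finset.sum_mul]
  have e2 : ∫ x, (w x * (∑ j, b j x ^ 2) + ∑ j, q j x) * rho w x
      = ∑ j, ∫ x, (w x * b j x ^ 2 + q j x) * rho w x := by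
    rw [← integral_finsetSum _ fun j _ => main_integrable1 (h j)]
    refine integral_congr_ae (Eventually.of_forall fun x => ?_)
    simp only
    rw [Finset.mul_sum, ← Finset.sum_add_distrib, Finset.sum_mul]
  have e3 : ∫ x, Ehr.Phi (w x) * ((∑ j, ‖a j‖ ^ 2) - ∑ j, ⟪a j, x⟫ ^ 2) * gw x
      = ∑ j, ∫ x, Ehr.Phi (w x) * (‖a j‖ ^ 2 - ⟪a j, x⟫ ^ 2) * gw x := by
    rw [← integral_finsetSum _ fun j _ => main_integrable3 hw (a j)]
    refine integral_congr_ae (Eventually.of_forall fun x => ?_)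
    simp only
    rw [← Finset.sum_sub_distrib, Finset.mul_sum, Finset.sum_mul]
  rw [e1, e2, e3, Finset.mul_sum, Finset.mul_sum, ← Finset.sum_add_distrib]
  exact hsum

end Vale.Agent.P262.JC
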