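import Vale.Agent.P262.H889.Heat

/-!
Borell's maximum principle in dimension one: the functional Ehrhard inequality for C^2 functions
with bounded first and second derivatives.
-/

open MeasureTheory ProbabilityTheory Set Filter Topology

namespace Vale.Agent.P262.Ehr

section general

variable {α : Type*} [MeasurableSpace α]

theorem Ph_integrable {μ : Measure α} [IsFiniteMeasure μ] {u : α → ℝ} (hu : AEStronglyMeasurable u μ) :
    Integrable (fun y => Ph (u y)) μ :=
  Integrable.of_bound (Ph_continuous.comp_aestronglyMeasurable hu) 1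
    (Eventually.of_forall fun y => by
      rw [Real.norm_eq_abs, abs_of_pos (Ph_pos _)]; exact (Ph_lt_one _).le)

theorem ph_integrable' {μ : Measure α} [IsFiniteMeasure μ] {u : α → ℝ} (hu : AEStronglyMeasurable u μ) :
    Integrable (fun y => ph (u y)) μ :=
  Integrable.of_bound (ph_continuous.comp_aestronglyMeasurable hu) 1
    (Eventually.of_forall fun y => by
      rw [Real.norm_eq_abs, abs_of_pos (ph_pos _)]; exact ph_le _)

theorem integral_pos_of_pos {μ : Measure α} [IsProbabilityMeasure μ] {g : α → ℝ}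
    (hg : Integrable g μ) (h : ∀ y, 0 < g y) : 0 < ∫ y, g y ∂μ := by
  rw [integral_pos_iff_support_of_nonneg (fun y => (h y).le) hg]
  have : Function.support g = univ := by
    ext y; simp [(h y).ne']
  rw [this]; simp

theorem int_Ph_pos {μ : Measure α} [IsProbabilityMeasure μ] {u : α → ℝ}
    (hu : AEStronglyMeasurable u μ) : 0 < ∫ y, Ph (u y) ∂μ :=
  integral_pos_of_pos (Ph_integrable hu) fun y => Ph_pos _

theorem int_Ph_lt_one {μ : Measure α} [IsProbabilityMeasure μ] {u : α → ℝ}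
    (hu : AEStronglyMeasurable u μ) : ∫ y, Ph (u y) ∂μ < 1 := by
  have h := integral_pos_of_pos (μ := μ) (g := fun y => 1 - Ph (u y))
    ((integrable_const 1).sub (Ph_integrable hu)) fun y => sub_pos.2 (Ph_lt_one (u y))
  rw [integral_sub (integrable_const 1) (Ph_integrable hu)] at h
  simp at h
  exact h

/-- `Phi^{-1}` of the mean of `Phi(u)` -/
noncomputable def G (μ : Measure α) (u : α → ℝ) : ℝ := Pi (∫ y, Ph (u y) ∂μ)

theorem Ph_G {μ : Measure α} [IsProbabilityMeasure μ] {u : α → ℝ}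
    (hu : AEStronglyMeasurable u μ) : Ph (G μ u) = ∫ y, Ph (u y) ∂μ :=
  Ph_Pi (int_Ph_pos hu) (int_Ph_lt_one hu)

/-- Jensen for the isoperimetric profile -/
theorem int_ph_le {μ : Measure α} [IsProbabilityMeasure μ] {u : α → ℝ}
    (hu : AEStronglyMeasurable u μ) : ∫ y, ph (u y) ∂μ ≤ ph (G μ u) := by
  have hi2 : Integrable (fun y => G μ u * (Ph (u y) - Ph (G μ u))) μ :=
    ((Ph_integrable hu).sub (integrable_const _)).const_mul _
  have h1 : ∫ y, (ph (u y) + G μ u * (Ph (u y) - Ph (G μ u))) ∂μ ≤ ∫ _, ph (G μ u) ∂μ :=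
    integral_mono ((ph_integrable' hu).add hi2) (integrable_const _) fun y => tangent _ _
  rw [integral_add (ph_integrable' hu) hi2, integral_const_mul,
    integral_sub (Ph_integrable hu) (integrable_const _)] at h1
  simp only [integral_const, probReal_univ, one_smul] at h1
  rw [← Ph_G hu] at h1
  linarith

end general

/-- C^2 function with bounded first and second derivatives -/
structure Nice (u u1 u2 : ℝ → ℝ) (L M : ℝ) : Prop where
  d1 : ∀ x, HasDerivAt u (u1 x) x
  d2 : ∀ x, HasDerivAt u1 (u2 x) x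
  c2 : Continuous u2
  b1 : ∀ x, |u1 x| ≤ L
  b2 : ∀ x, |u2 x| ≤ M

variable {u u1 u2 : ℝ → ℝ} {L M : ℝ}

theorem Nice.cont (h : Nice u u1 u2 L M) : Continuous u :=
  continuous_iff_continuousAt.2 fun x => (h.d1 x).continuousAt

theorem Nice.cont1 (h : Nice u u1 u2 L M) : Continuous u1 :=
  continuous_iff_continuousAt.2 fun x => (h.d2 x).continuousAt

noncomputable def g1 (u u1 : ℝ → ℝ) (x : ℝ) : ℝ := ph (u x) * u1 x
noncomputable def g2 (u u1 u2 : ℝ → ℝ) (x : ℝ) : ℝ := ph (u x) * (u2 x - u x * u1 x ^ 2)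

theorem Nice.L_nonneg (h : Nice u u1 u2 L M) : 0 ≤ L := (abs_nonneg _).trans (h.b1 0)

theorem Nice.c2b (h : Nice u u1 u2 L M) :
    C2b (fun x => Ph (u x)) (g1 u u1) (g2 u u1 u2) 1 L (M + L ^ 2) where
  d1 := fun x => by
    simpa [g1, Function.comp_def] using (Ph_hasDerivAt (u x)).comp x (h.d1 x)
  d2 := fun x => by
    have h1 : HasDerivAt (fun x => ph (u x)) (-(u x * ph (u x)) * u1 x) x := by
      simpa [Function.comp_def] using (ph_hasDerivAt (u x)).comp x (h.d1 x)
    refine (h1.mul (h.d2 x)).congr_deriv ?_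
    unfold g2; ring
  c2 := by
    have := h.cont; have := h.cont1; have := h.c2; have := ph_continuous
    unfold g2; fun_prop
  b0 := fun x => by rw [abs_of_pos (Ph_pos _)]; exact (Ph_lt_one _).le
  b1 := fun x => by
    unfold g1
    rw [abs_mul, abs_of_pos (ph_pos _)]
    calc ph (u x) * |u1 x| ≤ 1 * L := mul_le_mul (ph_le _) (h.b1 x) (abs_nonneg _) zero_le_one
      _ = L := one_mul L
  b2 := fun x => by
    unfold g2
    have e : ph (u x) * (u2 x - u x * u1 x ^ 2) = ph (u x) * u2 x - (u x * ph (u x)) * u1 x ^ 2 := by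
      ring
    rw [e]
    refine (abs_sub _ _).trans (add_le_add ?_ ?_)
    · rw [abs_mul, abs_of_pos (ph_pos _)]
      calc ph (u x) * |u2 x| ≤ 1 * M := mul_le_mul (ph_le _) (h.b2 x) (abs_nonneg _) zero_le_one
        _ = M := one_mul M
    · rw [abs_mul, abs_mul, abs_of_pos (ph_pos _), abs_pow]
      calc |u x| * ph (u x) * |u1 x| ^ 2 ≤ 1 * L ^ 2 :=
            mul_le_mul (abs_mul_ph_le _) (pow_le_pow_left₀ (abs_nonneg _) (h.b1 x) 2)
              (by positivity) zero_le_one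
        _ = L ^ 2 := one_mul _

/-- the evolution `U = Phi^{-1} P_t Phi(u)` -/
noncomputable def UU (u : ℝ → ℝ) (t x : ℝ) : ℝ := G gam (fun y => u (x + Real.sqrt t * y))

noncomputable def UU1 (u u1 : ℝ → ℝ) (t x : ℝ) : ℝ := HF (g1 u u1) t x / ph (UU u t x)

noncomputable def UU2 (u u1 u2 : ℝ → ℝ) (t x : ℝ) : ℝ :=
  HF (g2 u u1 u2) t x / ph (UU u t x) + UU u t x * UU1 u u1 t x ^ 2

theorem aesm {u : ℝ → ℝ} (hu : Continuous u) (t x : ℝ) :
    AEStronglyMeasurable (fun y => u (x + Real.sqrt t * y)) gam :=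
  (hu.comp (by fun_prop)).aestronglyMeasurable

theorem UU_eq (u : ℝ → ℝ) (t x : ℝ) : UU u t x = Pi (HF (fun x => Ph (u x)) t x) := rfl

theorem HF_pos (hu : Continuous u) (t x : ℝ) : 0 < HF (fun x => Ph (u x)) t x :=
  int_Ph_pos (aesm hu t x)

theorem HF_lt_one (hu : Continuous u) (t x : ℝ) : HF (fun x => Ph (u x)) t x < 1 :=
  int_Ph_lt_one (aesm hu t x)

theorem UU_zero (u : ℝ → ℝ) (x : ℝ) : UU u 0 x = u x := by
  unfold UU G
  simp [Pi_Ph]

theorem UU_continuous (hu : Continuous u) : Continuous (fun p : ℝ × ℝ => UU u p.1 p.2) := by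
  have h1 := HF_continuous (f := fun x => Ph (u x)) (Ph_continuous.comp hu) (A := 1)
    (fun x => by rw [abs_of_pos (Ph_pos _)]; exact (Ph_lt_one _).le)
  rw [continuous_iff_continuousAt] at h1 ⊢
  intro p
  have h2 := Pi_continuousAt (HF_pos hu p.1 p.2) (HF_lt_one hu p.1 p.2)
  exact ContinuousAt.comp (f := fun p : ℝ × ℝ => HF (fun x => Ph (u x)) p.1 p.2) (g := Pi) h2 (h1 p)

theorem UU_dx (h : Nice u u1 u2 L M) (t x : ℝ) :
    HasDerivAt (fun x => UU u t x) (UU1 u u1 t x) x := by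
  have h1 := HF_dx h.c2b.d1 h.c2b.b0 h.c2b.b1 h.c2b.cont1 t x
  have h2 := (Pi_hasDerivAt (HF_pos h.cont t x) (HF_lt_one h.cont t x)).comp x h1
  refine h2.congr_deriv ?_
  rw [UU1, div_eq_inv_mul]; rfl

theorem UU1_bound (h : Nice u u1 u2 L M) (t x : ℝ) : |UU1 u u1 t x| ≤ L := by
  have hm := aesm h.cont t x
  have h1 : |HF (g1 u u1) t x| ≤ L * ∫ y, ph (u (x + Real.sqrt t * y)) ∂gam := by
    unfold HF
    rw [← integral_const_mul, ← Real.norm_eq_abs]
    refine norm_integral_le_of_norm_le ((ph_integrable' hm).const_mul L)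
      (Eventually.of_forall fun y => ?_)
    rw [Real.norm_eq_abs]
    unfold g1
    rw [abs_mul, abs_of_pos (ph_pos _), mul_comm]
    exact mul_le_mul_of_nonneg_right (h.b1 _) (ph_pos _).le
  have h2 := int_ph_le hm
  rw [UU1, abs_div, abs_of_pos (ph_pos _), div_le_iff₀ (ph_pos _)]
  exact h1.trans (mul_le_mul_of_nonneg_left h2 h.L_nonneg)

theorem UU1_dx (h : Nice u u1 u2 L M) (t x : ℝ) :
    HasDerivAt (fun x => UU1 u u1 t x) (UU2 u u1 u2 t x) x := by
  have h1 := HF_dx h.c2b.d2 h.c2b.b1 h.c2b.b2 h.c2b.c2 t x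
  have h2 : HasDerivAt (fun x => ph (UU u t x)) (-(UU u t x * ph (UU u t x)) * UU1 u u1 t x) x := by
    simpa [Function.comp_def] using (ph_hasDerivAt (UU u t x)).comp x (UU_dx h t x)
  refine (h1.div h2 (ph_pos _).ne').congr_deriv ?_
  have hp := (ph_pos (UU u t x)).ne'
  have e : HF (g1 u u1) t x = UU1 u u1 t x * ph (UU u t x) := by
    rw [UU1]; field_simp
  rw [UU2, e]
  field_simp
  ring

theorem UU_dt (h : Nice u u1 u2 L M) {t : ℝ} (ht : 0 < t) (x : ℝ) :
    HasDerivAt (fun t => UU u t x)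
      ((UU2 u u1 u2 t x - UU u t x * UU1 u u1 t x ^ 2) / 2) t := by
  have h1 := HF_dt h.c2b ht x
  have h2 := (Pi_hasDerivAt (HF_pos h.cont t x) (HF_lt_one h.cont t x)).comp t h1
  refine h2.congr_deriv ?_
  rw [UU2, ← UU_eq]
  have hp := (ph_pos (UU u t x)).ne'
  field_simp
  ring

theorem UU_growth (h : Nice u u1 u2 L M) (t x : ℝ) : |UU u t x| ≤ |UU u t 0| + L * |x| := by
  have h1 := Convex.norm_image_sub_le_of_norm_hasDerivWithin_le (f := fun x => UU u t x)
    (f' := fun x => UU1 u u1 t x) (s := univ) (x := 0) (y := x) (C := L)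
    (fun x _ => (UU_dx h t x).hasDerivWithinAt) (fun x _ => UU1_bound h t x) convex_univ
    (mem_univ _) (mem_univ _)
  simp only [Real.norm_eq_abs, sub_zero] at h1
  have := abs_sub_abs_le_abs_sub (UU u t x) (UU u t 0)
  linarith

/-- second derivative test -/
theorem second_deriv_test {g g' : ℝ → ℝ} {c : ℝ} (hg : ∀ s, HasDerivAt g (g' s) s)
    (hc : HasDerivAt g' c 0) (hmin : ∀ s, g 0 ≤ g s) : g' 0 = 0 ∧ 0 ≤ c := by
  have h0 : g' 0 = 0 := by
    have hl : IsLocalMin g 0 := Eventually.of_forall hmin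
    exact hl.hasDerivAt_eq_zero (hg 0)
  refine ⟨h0, ?_⟩
  by_contra hneg
  push Not at hneg
  have h1 := hc.tendsto_slope
  have h2 : ∀ᶠ s in 𝓝[>] (0 : ℝ), slope g' 0 s < 0 :=
    (h1.mono_left (nhdsWithin_mono 0 fun s hs => (ne_of_gt hs))).eventually (gt_mem_nhds hneg)
  obtain ⟨η, hη, hη2⟩ := (mem_nhdsGT_iff_exists_Ioo_subset).1 h2
  have hη' : (0 : ℝ) < η := hη
  obtain ⟨ξ, hξ, hξ2⟩ := exists_hasDerivAt_eq_slope g g' (show (0 : ℝ) < η / 2 by linarith)
    (fun x _ => (hg x).continuousAt.continuousWithinAt) (fun x _ => hg x)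
  have h3 : slope g' 0 ξ < 0 := hη2 ⟨hξ.1, by linarith [hξ.2]⟩
  rw [slope_def_field, h0, sub_zero, sub_zero] at h3
  have h4 : g' ξ < 0 := by
    rcases div_neg_iff.1 h3 with h | h
    · linarith [h.2, hξ.1]
    · exact h.1
  rw [hξ2, sub_zero] at h4
  have h5 : 0 ≤ (g (η / 2) - g 0) / (η / 2) :=
    div_nonneg (by linarith [hmin (η / 2)]) (by linarith)
  linarith

/-- one sided derivative test in time -/
theorem time_deriv_test {g : ℝ → ℝ} {c t : ℝ} (ht : 0 < t) (hg : HasDerivAt g c t)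
    (hmin : ∀ s, 0 ≤ s → s ≤ t → g t ≤ g s) : c ≤ 0 := by
  have h1 := hg.tendsto_slope
  have h2 : Tendsto (slope g t) (𝓝[<] t) (𝓝 c) :=
    h1.mono_left (nhdsWithin_mono t fun s hs => (ne_of_lt hs))
  refine le_of_tendsto h2 ?_
  filter_upwards [Ioo_mem_nhdsLT ht] with s hs
  rw [slope_def_field]
  exact div_nonpos_of_nonneg_of_nonpos (by linarith [hmin s hs.1.le hs.2.le]) (by linarith [hs.2])

end Vale.Agent.P262.Ehr
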