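import Vale.Agent.P262.H889.MaxP

/-!
Borell's maximum principle: main argument for C^2 functions on the line.
-/

open MeasureTheory ProbabilityTheory Set Filter Topology

namespace Vale.Agent.P262.Ehr

/-- bound for a cross term -/
theorem cross_bound {E L B p b r Z : ℝ} (hE : 0 < E) (hL : 0 ≤ L) (hB : 0 ≤ B) (hp : |p| ≤ L)
    (hb : |b| ≤ B + L * |Z|) (hr : |r| ≤ L) :
    |b * (r + p) * (2 * E * Z)| ≤ 4 * L * E * (B + L) * (1 + Z ^ 2) := by
  have h1 : |r + p| ≤ 2 * L := (abs_add_le _ _).trans (by linarith)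
  have hz : |Z| ≤ 1 + Z ^ 2 := by nlinarith [sq_nonneg (|Z| - 1), sq_abs Z, abs_nonneg Z]
  have hz2 : |Z| * (B + L * |Z|) ≤ (B + L) * (1 + Z ^ 2) := by
    have e : |Z| * (B + L * |Z|) = B * |Z| + L * Z ^ 2 := by rw [← sq_abs Z]; ring
    rw [e]
    have h3 := mul_le_mul_of_nonneg_left hz hB
    have h4 : 0 ≤ L * 1 := by linarith
    linarith
  rw [abs_mul, abs_mul, abs_mul, abs_mul, abs_of_pos hE, abs_of_pos (show (0 : ℝ) < 2 by norm_num)]
  calc |b| * |r + p| * (2 * E * |Z|) ≤ (B + L * |Z|) * (2 * L) * (2 * E * |Z|) := by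
        apply mul_le_mul_of_nonneg_right _ (by positivity)
        exact mul_le_mul hb h1 (abs_nonneg _) (by positivity)
    _ = 4 * L * E * (|Z| * (B + L * |Z|)) := by ring
    _ ≤ 4 * L * E * ((B + L) * (1 + Z ^ 2)) := by
        apply mul_le_mul_of_nonneg_left hz2 (by positivity)
    _ = _ := by ring

theorem algebra_one {l a a0 a1 p p0 p1 X Y E : ℝ} 
    (i1 : (1 - l) * p - (1 - l) * p0 + 2 * E * X = 0)
    (i2 : l * p - l * p1 + 2 * E * Y = 0) :
    a * p ^ 2 - (1 - l) * (a0 * p0 ^ 2) - l * (a1 * p1 ^ 2)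
      = p ^ 2 * (a - (1 - l) * a0 - l * a1) - a0 * (p0 + p) * (2 * E * X)
        - a1 * (p1 + p) * (2 * E * Y) := by
  have e0 : 2 * E * X = (1 - l) * (p0 - p) := by linarith
  have e1 : 2 * E * Y = l * (p1 - p) := by linarith
  rw [e0, e1]
  ring

theorem algebra_end {X Y E K c : ℝ} (hE : 0 < E) (hc : 0 ≤ c) (hK : K = 3 + 4 * c)
    (h6 : K * E * (1 + X ^ 2 + Y ^ 2) ≤ 2 * E
      + (1 / 2) * (4 * (c * E) * (1 + X ^ 2) + 4 * (c * E) * (1 + Y ^ 2))) : False := by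
  rw [hK] at h6
  have h1 : 0 ≤ E * X ^ 2 := by positivity
  have h2 : 0 ≤ E * Y ^ 2 := by positivity
  have h3 : 0 ≤ c * E * X ^ 2 := by positivity
  have h4 : 0 ≤ c * E * Y ^ 2 := by positivity
  linarith

/-- the algebra at the minimum point -/
theorem algebra_contra {l a a0 a1 p p0 p1 q q0 q1 X Y E K B L : ℝ} (hE : 0 < E)
    (hL : 0 ≤ L) (hB : 0 ≤ B)
    (i1 : (1 - l) * p - (1 - l) * p0 + 2 * E * X = 0)
    (i2 : l * p - l * p1 + 2 * E * Y = 0)
    (i3 : 0 ≤ q - (1 - l) * q0 - l * q1 + 4 * E)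
    (i4 : (q - a * p ^ 2) / 2 - (1 - l) * ((q0 - a0 * p0 ^ 2) / 2) - l * ((q1 - a1 * p1 ^ 2) / 2)
      + K * E * (1 + X ^ 2 + Y ^ 2) ≤ 0)
    (i5 : a - (1 - l) * a0 - l * a1 + E * (1 + X ^ 2 + Y ^ 2) < 0)
    (ha0 : |a0| ≤ B + L * |X|) (ha1 : |a1| ≤ B + L * |Y|)
    (hp : |p| ≤ L) (hp0 : |p0| ≤ L) (hp1 : |p1| ≤ L) (hK : K = 3 + 4 * L * (B + L)) : False := by
  have hS : 0 < 1 + X ^ 2 + Y ^ 2 := by positivity
  have c0 := cross_bound (b := a0) (r := p0) (Z := X) hE hL hB hp ha0 hp0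
  have c1 := cross_bound (b := a1) (r := p1) (Z := Y) hE hL hB hp ha1 hp1
  have hneg : p ^ 2 * (a - (1 - l) * a0 - l * a1) ≤ 0 := by
    have h2 : a - (1 - l) * a0 - l * a1 < 0 := by
      have := mul_pos hE hS
      linarith
    exact mul_nonpos_of_nonneg_of_nonpos (sq_nonneg p) h2.le
  have h5 : a * p ^ 2 - (1 - l) * (a0 * p0 ^ 2) - l * (a1 * p1 ^ 2)
      ≤ 4 * L * E * (B + L) * (1 + X ^ 2) + 4 * L * E * (B + L) * (1 + Y ^ 2) := by
    rw [algebra_one (a := a) (a0 := a0) (a1 := a1) i1 i2]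
    have h8 := neg_abs_le (a0 * (p0 + p) * (2 * E * X))
    have h9 := neg_abs_le (a1 * (p1 + p) * (2 * E * Y))
    linarith only [h8, h9, c0, c1, hneg]
  have h6 : K * E * (1 + X ^ 2 + Y ^ 2) ≤ 2 * E
      + (1 / 2) * (4 * L * E * (B + L) * (1 + X ^ 2) + 4 * L * E * (B + L) * (1 + Y ^ 2)) := by
    linarith only [i4, i3, h5]
  refine algebra_end (c := L * (B + L)) (X := X) (Y := Y) (K := K) hE (by positivity)
    (by rw [hK]; ring) ?_
  linarith only [h6]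

/-- the penalised difference -/
noncomputable def WW (um u0 u1 : ℝ → ℝ) (l δ K t x y : ℝ) : ℝ :=
  UU um t ((1 - l) * x + l * y) - (1 - l) * UU u0 t x - l * UU u1 t y
    + δ * Real.exp (K * t) * (1 + x ^ 2 + y ^ 2)

theorem WW_continuous {um u0 u1 : ℝ → ℝ} (hm : Continuous um) (h0 : Continuous u0)
    (h1 : Continuous u1) (l δ K : ℝ) :
    Continuous (fun p : ℝ × ℝ × ℝ => WW um u0 u1 l δ K p.1 p.2.1 p.2.2) := by
  unfold WW
  have hm' := UU_continuous hm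
  have h0' := UU_continuous h0
  have h1' := UU_continuous h1
  have a1 : Continuous (fun p : ℝ × ℝ × ℝ => UU um p.1 ((1 - l) * p.2.1 + l * p.2.2)) :=
    hm'.comp (f := fun p : ℝ × ℝ × ℝ => (p.1, (1 - l) * p.2.1 + l * p.2.2)) (by fun_prop)
  have a2 : Continuous (fun p : ℝ × ℝ × ℝ => UU u0 p.1 p.2.1) :=
    h0'.comp (f := fun p : ℝ × ℝ × ℝ => (p.1, p.2.1)) (by fun_prop)
  have a3 : Continuous (fun p : ℝ × ℝ × ℝ => UU u1 p.1 p.2.2) :=
    h1'.comp (f := fun p : ℝ × ℝ × ℝ => (p.1, p.2.2)) (by fun_prop)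
  fun_prop

variable {um um1 um2 u0 u01 u02 u1 u11 u12 : ℝ → ℝ} {L M l δ : ℝ}

/-- at an interior global minimum with negative value we get a contradiction -/
theorem no_neg_min (hm : Nice um um1 um2 L M) (h0 : Nice u0 u01 u02 L M)
    (h1 : Nice u1 u11 u12 L M) {B : ℝ} (hδ : 0 < δ) (hB : 0 ≤ B)
    {K : ℝ} (hK : K = 3 + 4 * L * (B + L)) {t x y : ℝ} (ht : 0 < t)
    (b0 : |UU u0 t 0| ≤ B) (b1 : |UU u1 t 0| ≤ B)
    (hneg : WW um u0 u1 l δ K t x y < 0)
    (hmin : ∀ s, 0 ≤ s → s ≤ t → ∀ x' y', WW um u0 u1 l δ K t x y ≤ WW um u0 u1 l δ K s x' y') :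
    False := by
  set z := (1 - l) * x + l * y with hz
  set E := δ * Real.exp (K * t) with hE
  have hEpos : 0 < E := mul_pos hδ (Real.exp_pos _)
  have hself : ∀ x' y', WW um u0 u1 l δ K t x y ≤ WW um u0 u1 l δ K t x' y' :=
    hmin t ht.le le_rfl
  -- general line: direction (a,b)
  have line : ∀ a b : ℝ,
      ((1 - l) * a + l * b) * UU1 um um1 t z - (1 - l) * a * UU1 u0 u01 t x - l * b * UU1 u1 u11 t y
        + E * (2 * x * a + 2 * y * b) = 0 ∧
      0 ≤ ((1 - l) * a + l * b) ^ 2 * UU2 um um1 um2 t z - (1 - l) * a ^ 2 * UU2 u0 u01 u02 t x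
        - l * b ^ 2 * UU2 u1 u11 u12 t y + E * (2 * a ^ 2 + 2 * b ^ 2) := by
    intro a b
    have lin : ∀ (c d s : ℝ), HasDerivAt (fun s => c + s * d) d s := fun c d s => by
      simpa using ((hasDerivAt_id s).mul_const d).const_add c
    have dU : ∀ {u v w : ℝ → ℝ}, Nice u v w L M → ∀ c d s,
        HasDerivAt (fun s => UU u t (c + s * d)) (d * UU1 u v t (c + s * d)) s := by
      intro u v w h c d s
      have := (UU_dx h t (c + s * d)).comp s (lin c d s)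
      simpa [Function.comp_def, mul_comm] using this
    have dU1 : ∀ {u v w : ℝ → ℝ}, Nice u v w L M → ∀ c d s,
        HasDerivAt (fun s => UU1 u v t (c + s * d)) (d * UU2 u v w t (c + s * d)) s := by
      intro u v w h c d s
      have := (UU1_dx h t (c + s * d)).comp s (lin c d s)
      simpa [Function.comp_def, mul_comm] using this
    have dq : ∀ s, HasDerivAt (fun s => E * (1 + (x + s * a) ^ 2 + (y + s * b) ^ 2))
        (E * (2 * (x + s * a) * a + 2 * (y + s * b) * b)) s := by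
      intro s
      have hx := (lin x a s).pow 2
      have hy := (lin y b s).pow 2
      refine (((hx.const_add 1).add hy).const_mul E).congr_deriv ?_
      norm_num
    have dq1 : ∀ s, HasDerivAt (fun s => E * (2 * (x + s * a) * a + 2 * (y + s * b) * b))
        (E * (2 * a ^ 2 + 2 * b ^ 2)) s := by
      intro s
      have hx := ((lin x a s).const_mul 2).mul_const a
      have hy := ((lin y b s).const_mul 2).mul_const b
      refine ((hx.add hy).const_mul E).congr_deriv ?_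
      ring
    set c := (1 - l) * a + l * b with hc
    set g : ℝ → ℝ := fun s => UU um t (z + s * c) - (1 - l) * UU u0 t (x + s * a)
      - l * UU u1 t (y + s * b) + E * (1 + (x + s * a) ^ 2 + (y + s * b) ^ 2) with hg
    set g' : ℝ → ℝ := fun s => c * UU1 um um1 t (z + s * c)
      - (1 - l) * (a * UU1 u0 u01 t (x + s * a))
      - l * (b * UU1 u1 u11 t (y + s * b)) + E * (2 * (x + s * a) * a + 2 * (y + s * b) * b) with hg'
    have hgd : ∀ s, HasDerivAt g (g' s) s := fun s =>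
      (((dU hm z c s).sub ((dU h0 x a s).const_mul (1 - l))).sub
        ((dU h1 y b s).const_mul l)).add (dq s)
    have hg'd : HasDerivAt g' (c * (c * UU2 um um1 um2 t (z + 0 * c))
        - (1 - l) * (a * (a * UU2 u0 u01 u02 t (x + 0 * a)))
        - l * (b * (b * UU2 u1 u11 u12 t (y + 0 * b))) + E * (2 * a ^ 2 + 2 * b ^ 2)) 0 :=
      (((((dU1 hm z c 0).const_mul c).sub (((dU1 h0 x a 0).const_mul a).const_mul (1 - l))).sub
        (((dU1 h1 y b 0).const_mul b).const_mul l)).add (dq1 0))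
    have hWg : ∀ s, WW um u0 u1 l δ K t (x + s * a) (y + s * b) = g s := by
      intro s
      simp only [hg, WW, ← hE]
      have : (1 - l) * (x + s * a) + l * (y + s * b) = z + s * c := by rw [hz, hc]; ring
      rw [this]
    have hgmin : ∀ s, g 0 ≤ g s := by
      intro s
      rw [← hWg, ← hWg]
      simpa using hself (x + s * a) (y + s * b)
    obtain ⟨r1, r2⟩ := second_deriv_test hgd hg'd hgmin
    simp only [zero_mul, add_zero] at r2
    simp only [hg', zero_mul, add_zero] at r1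
    constructor
    · linarith
    · linarith
  have i1 := (line 1 0).1
  have i2 := (line 0 1).1
  have i3 := (line 1 1).2
  have hU0 := UU_growth h0 t x
  have hU1 := UU_growth h1 t y
  -- time derivative
  have hexp : HasDerivAt (fun s => δ * Real.exp (K * s) * (1 + x ^ 2 + y ^ 2))
      (K * E * (1 + x ^ 2 + y ^ 2)) t := by
    have h2 : HasDerivAt (fun s => Real.exp (K * s)) (Real.exp (K * t) * K) t := by
      have := ((hasDerivAt_id t).const_mul K).exp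
      simpa using this
    refine ((h2.const_mul δ).mul_const (1 + x ^ 2 + y ^ 2)).congr_deriv ?_
    rw [hE]; ring
  have htd := (((UU_dt hm ht z).sub ((UU_dt h0 ht x).const_mul (1 - l))).sub
    ((UU_dt h1 ht y).const_mul l)).add hexp
  have i4 := time_deriv_test ht htd (fun s hs0 hst => by
    have := hmin s hs0 hst x y
    simpa [WW, hz] using this)
  refine algebra_contra (l := l) (a := UU um t z) (a0 := UU u0 t x) (a1 := UU u1 t y)
    (p := UU1 um um1 t z) (p0 := UU1 u0 u01 t x) (p1 := UU1 u1 u11 t y)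
    (q := UU2 um um1 um2 t z) (q0 := UU2 u0 u01 u02 t x) (q1 := UU2 u1 u11 u12 t y)
    (X := x) (Y := y) (E := E) (K := K) (B := B) (L := L) hEpos hm.L_nonneg hB ?_ ?_ ?_ ?_ ?_
    ?_ ?_ (UU1_bound hm t z) (UU1_bound h0 t x) (UU1_bound h1 t y) hK
  · linarith
  · linarith
  · linarith
  · linarith
  · have := hneg
    unfold WW at this
    linarith
  · linarith
  · linarith

/-- lower growth bound of the penalised difference -/
theorem WW_low (hm : Nice um um1 um2 L M) (h0 : Nice u0 u01 u02 L M)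
    (h1 : Nice u1 u11 u12 L M) (hl0 : 0 ≤ l) (hl1 : l ≤ 1) (hδ : 0 < δ) {B K t : ℝ} (hB : 0 ≤ B)
    (hK : 0 ≤ K) (ht : 0 ≤ t) (bm : |UU um t 0| ≤ B) (b0 : |UU u0 t 0| ≤ B) (b1 : |UU u1 t 0| ≤ B)
    (x y : ℝ) : -(3 * B) - 2 * L * |x| - 2 * L * |y| + δ * (x ^ 2 + y ^ 2)
      ≤ WW um u0 u1 l δ K t x y := by
  have hL := hm.L_nonneg
  have g1 := UU_growth hm t ((1 - l) * x + l * y)
  have g2 := UU_growth h0 t x
  have g3 := UU_growth h1 t y
  have hl1' : 0 ≤ 1 - l := by linarith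
  have hz : |(1 - l) * x + l * y| ≤ |x| + |y| := by
    refine (abs_add_le _ _).trans (add_le_add ?_ ?_)
    · rw [abs_mul, abs_of_nonneg hl1']
      exact mul_le_of_le_one_left (abs_nonneg _) (by linarith)
    · rw [abs_mul, abs_of_nonneg hl0]
      exact mul_le_of_le_one_left (abs_nonneg _) hl1
  have k1 : -(B + L * (|x| + |y|)) ≤ UU um t ((1 - l) * x + l * y) := by
    have h3 := neg_abs_le (UU um t ((1 - l) * x + l * y))
    have h4 := mul_le_mul_of_nonneg_left hz hL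
    linarith
  have k2 : (1 - l) * UU u0 t x ≤ B + L * |x| := by
    have e1 : UU u0 t x ≤ B + L * |x| := (le_abs_self _).trans (by linarith)
    have e2 : 0 ≤ B + L * |x| := by positivity
    exact (mul_le_mul_of_nonneg_left e1 hl1').trans (mul_le_of_le_one_left e2 (by linarith))
  have k3 : l * UU u1 t y ≤ B + L * |y| := by
    have e1 : UU u1 t y ≤ B + L * |y| := (le_abs_self _).trans (by linarith)
    have e2 : 0 ≤ B + L * |y| := by positivity
    exact (mul_le_mul_of_nonneg_left e1 hl0).trans (mul_le_of_le_one_left e2 hl1)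
  have k4 : δ * (x ^ 2 + y ^ 2) ≤ δ * Real.exp (K * t) * (1 + x ^ 2 + y ^ 2) := by
    have e1 : 1 ≤ Real.exp (K * t) := Real.one_le_exp (mul_nonneg hK ht)
    have e3 : 0 ≤ 1 + x ^ 2 + y ^ 2 := by positivity
    have e4 := mul_le_mul_of_nonneg_right e1 e3
    rw [mul_assoc]
    exact mul_le_mul_of_nonneg_left (by linarith) hδ.le
  unfold WW
  linarith only [k1, k2, k3, k4]

theorem quad_low {L δ : ℝ} (hδ : 0 < δ) (s : ℝ) : -(L ^ 2 / δ) ≤ -(2 * L * |s|) + δ * s ^ 2 := by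
  have e : δ * (-(2 * L * |s|) + δ * s ^ 2 + L ^ 2 / δ) = (δ * |s| - L) ^ 2 := by
    rw [← sq_abs s]; field_simp; ring
  have h2 : 0 ≤ -(2 * L * |s|) + δ * s ^ 2 + L ^ 2 / δ := by
    by_contra hh
    push Not at hh
    have := mul_neg_of_pos_of_neg hδ hh
    rw [e] at this
    linarith [sq_nonneg (δ * |s| - L)]
  linarith

/-- positivity of the penalised difference outside a compact box -/
theorem WW_out (hm : Nice um um1 um2 L M) (h0 : Nice u0 u01 u02 L M)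
    (h1 : Nice u1 u11 u12 L M) (hl0 : 0 ≤ l) (hl1 : l ≤ 1) (hδ : 0 < δ) {B K : ℝ} (hB : 0 ≤ B)
    (hK : 0 ≤ K) (bm : ∀ t ∈ Icc (0 : ℝ) 1, |UU um t 0| ≤ B)
    (b0 : ∀ t ∈ Icc (0 : ℝ) 1, |UU u0 t 0| ≤ B) (b1 : ∀ t ∈ Icc (0 : ℝ) 1, |UU u1 t 0| ≤ B)
    (r0 : ℝ) :
    ∃ R, r0 ≤ R ∧ ∀ t ∈ Icc (0 : ℝ) 1, ∀ x y, (R ≤ |x| ∨ R ≤ |y|) → 0 < WW um u0 u1 l δ K t x y := by
  have hL := hm.L_nonneg
  obtain ⟨R, hR0, hR1, hRδ⟩ : ∃ R : ℝ, r0 ≤ R ∧ 1 ≤ R ∧
      3 * B + 2 * L + 2 * (L ^ 2 / δ) + 1 ≤ δ * R := by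
    refine ⟨max r0 (max 1 ((3 * B + 2 * L + 2 * (L ^ 2 / δ) + 1) / δ)), le_max_left _ _,
      (le_max_left _ _).trans (le_max_right _ _), ?_⟩
    rw [← div_le_iff₀' hδ]
    exact (le_max_right _ _).trans (le_max_right _ _)
  have hLd : 0 ≤ L ^ 2 / δ := by positivity
  have quad2 : ∀ s : ℝ, R ≤ |s| → 3 * B + L ^ 2 / δ < -(2 * L * |s|) + δ * s ^ 2 := by
    intro s hs
    have h2 : 3 * B + 2 * (L ^ 2 / δ) + 1 ≤ δ * |s| - 2 * L := by
      have := mul_le_mul_of_nonneg_left hs hδ.le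
      linarith
    have h3 : 1 ≤ |s| := hR1.trans hs
    have e : -(2 * L * |s|) + δ * s ^ 2 = |s| * (δ * |s| - 2 * L) := by
      rw [← sq_abs s]; ring
    rw [e]
    have h4 : 1 * (3 * B + 2 * (L ^ 2 / δ) + 1) ≤ |s| * (δ * |s| - 2 * L) :=
      mul_le_mul h3 h2 (by positivity) (by linarith)
    linarith
  refine ⟨R, hR0, fun t ht x y hxy => ?_⟩
  have h8 := WW_low hm h0 h1 hl0 hl1 hδ hB hK ht.1 (bm t ht) (b0 t ht) (b1 t ht) x y
  rcases hxy with h | h
  · linarith only [h8, quad2 x h, quad_low (L := L) hδ y]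
  · linarith only [h8, quad2 y h, quad_low (L := L) hδ x]

theorem bound_at_zero {u v w : ℝ → ℝ} (h : Nice u v w L M) :
    ∃ B, ∀ t ∈ Icc (0 : ℝ) 1, |UU u t 0| ≤ B := by
  have hc : Continuous (fun t => UU u t 0) :=
    (UU_continuous h.cont).comp (f := fun t : ℝ => (t, (0 : ℝ))) (by fun_prop)
  obtain ⟨B, hB⟩ := isCompact_Icc.exists_bound_of_continuousOn (f := fun t => UU u t 0)
    (s := Icc (0 : ℝ) 1) hc.continuousOn
  exact ⟨B, hB⟩

/-- Borell's inequality along the flow for C^2 functions, fixed constants -/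
theorem flow_ineq_aux (hm : Nice um um1 um2 L M) (h0 : Nice u0 u01 u02 L M)
    (h1 : Nice u1 u11 u12 L M) (hl0 : 0 ≤ l) (hl1 : l ≤ 1)
    (hyp : ∀ x y, (1 - l) * u0 x + l * u1 y ≤ um ((1 - l) * x + l * y)) (hδ : 0 < δ)
    {B K : ℝ} (hB : 0 ≤ B) (hK : K = 3 + 4 * L * (B + L))
    (bm : ∀ t ∈ Icc (0 : ℝ) 1, |UU um t 0| ≤ B)
    (b0 : ∀ t ∈ Icc (0 : ℝ) 1, |UU u0 t 0| ≤ B) (b1 : ∀ t ∈ Icc (0 : ℝ) 1, |UU u1 t 0| ≤ B)
    {t0 : ℝ} (ht0 : t0 ∈ Icc (0 : ℝ) 1) (x0 y0 : ℝ) : 0 ≤ WW um u0 u1 l δ K t0 x0 y0 := by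
  have hL := hm.L_nonneg
  have hKnn : 0 ≤ K := by rw [hK]; positivity
  by_contra hneg0
  push Not at hneg0
  obtain ⟨R, hR0, hout⟩ := WW_out hm h0 h1 hl0 hl1 hδ hB hKnn bm b0 b1 (|x0| + |y0|)
  have hRx : |x0| ≤ R := by linarith [abs_nonneg y0]
  have hRy : |y0| ≤ R := by linarith [abs_nonneg x0]
  -- minimum on the compact box
  have hScomp : IsCompact (Icc (0 : ℝ) 1 ×ˢ (Icc (-R) R ×ˢ Icc (-R) R)) :=
    isCompact_Icc.prod (isCompact_Icc.prod isCompact_Icc)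
  have hmem0 : (t0, x0, y0) ∈ Icc (0 : ℝ) 1 ×ˢ (Icc (-R) R ×ˢ Icc (-R) R) :=
    ⟨ht0, abs_le.1 hRx, abs_le.1 hRy⟩
  obtain ⟨p, hpS, hpmin⟩ := hScomp.exists_isMinOn ⟨_, hmem0⟩
    (WW_continuous hm.cont h0.cont h1.cont l δ K).continuousOn
  have hpmin' : ∀ s x' y', (s, x', y') ∈ Icc (0 : ℝ) 1 ×ˢ (Icc (-R) R ×ˢ Icc (-R) R) →
      WW um u0 u1 l δ K p.1 p.2.1 p.2.2 ≤ WW um u0 u1 l δ K s x' y' := by
    intro s x' y' hs
    exact isMinOn_iff.1 hpmin (s, x', y') hs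
  clear hpmin
  have hneg : WW um u0 u1 l δ K p.1 p.2.1 p.2.2 < 0 :=
    lt_of_le_of_lt (hpmin' t0 x0 y0 hmem0) hneg0
  have htI : p.1 ∈ Icc (0 : ℝ) 1 := hpS.1
  have hglob : ∀ s ∈ Icc (0 : ℝ) 1, ∀ x' y',
      WW um u0 u1 l δ K p.1 p.2.1 p.2.2 ≤ WW um u0 u1 l δ K s x' y' := by
    intro s hs x' y'
    by_cases hx : R ≤ |x'|
    · exact hneg.le.trans (hout s hs x' y' (Or.inl hx)).le
    by_cases hy : R ≤ |y'|
    · exact hneg.le.trans (hout s hs x' y' (Or.inr hy)).le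
    push Not at hx hy
    exact hpmin' s x' y' ⟨hs, abs_le.1 hx.le, abs_le.1 hy.le⟩
  have htpos : 0 < p.1 := by
    rcases htI.1.eq_or_lt with h | h
    · exfalso
      rw [← h] at hneg
      unfold WW at hneg
      rw [UU_zero, UU_zero, UU_zero, mul_zero, Real.exp_zero, mul_one] at hneg
      have h8 := hyp p.2.1 p.2.2
      have h9 : 0 < δ * (1 + p.2.1 ^ 2 + p.2.2 ^ 2) := by positivity
      linarith
    · exact h
  exact no_neg_min hm h0 h1 hδ hB hK htpos (b0 _ htI) (b1 _ htI) hneg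
    fun s hs0 hst x' y' => hglob s ⟨hs0, hst.trans htI.2⟩ x' y'

theorem flow_ineq (hm : Nice um um1 um2 L M) (h0 : Nice u0 u01 u02 L M)
    (h1 : Nice u1 u11 u12 L M) (hl0 : 0 ≤ l) (hl1 : l ≤ 1)
    (hyp : ∀ x y, (1 - l) * u0 x + l * u1 y ≤ um ((1 - l) * x + l * y)) :
    ∃ K : ℝ, ∀ δ : ℝ, 0 < δ → ∀ t ∈ Icc (0 : ℝ) 1, ∀ x y, 0 ≤ WW um u0 u1 l δ K t x y := by
  obtain ⟨Bm, hBm⟩ := bound_at_zero hm
  obtain ⟨B0, hB0⟩ := bound_at_zero h0
  obtain ⟨B1, hB1⟩ := bound_at_zero h1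
  have hB0' : ∀ t ∈ Icc (0 : ℝ) 1, |UU u0 t 0| ≤ max Bm (max B0 B1) := fun t ht =>
    (hB0 t ht).trans ((le_max_left _ _).trans (le_max_right _ _))
  refine ⟨3 + 4 * L * (max Bm (max B0 B1) + L), fun δ hδ t ht x y =>
    flow_ineq_aux hm h0 h1 hl0 hl1 hyp hδ (B := max Bm (max B0 B1))
      ((abs_nonneg _).trans (hB0' 0 ⟨le_rfl, zero_le_one⟩)) rfl
      (fun t ht => (hBm t ht).trans (le_max_left _ _)) hB0'
      (fun t ht => (hB1 t ht).trans ((le_max_right _ _).trans (le_max_right _ _))) ht x y⟩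

/-- functional Ehrhard inequality on the line for C^2 functions with bounded derivatives -/
theorem ehrhard_nice (hm : Nice um um1 um2 L M) (h0 : Nice u0 u01 u02 L M)
    (h1 : Nice u1 u11 u12 L M) (hl0 : 0 ≤ l) (hl1 : l ≤ 1)
    (hyp : ∀ x y, (1 - l) * u0 x + l * u1 y ≤ um ((1 - l) * x + l * y)) :
    (1 - l) * G gam u0 + l * G gam u1 ≤ G gam um := by
  have e : ∀ u : ℝ → ℝ, UU u 1 0 = G gam u := by
    intro u; unfold UU; simp
  obtain ⟨K, hK⟩ := flow_ineq hm h0 h1 hl0 hl1 hyp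
  have h2 : ∀ δ : ℝ, 0 < δ → (1 - l) * G gam u0 + l * G gam u1 ≤ G gam um + δ * Real.exp K := by
    intro δ hδ
    have h3 := hK δ hδ 1 ⟨zero_le_one, le_rfl⟩ 0 0
    unfold WW at h3
    simp only [mul_zero, add_zero, e, mul_one, ne_eq, OfNat.ofNat_ne_zero, not_false_eq_true,
      zero_pow] at h3
    linarith
  refine le_of_forall_pos_le_add fun ε hε => ?_
  have h4 := h2 (ε / Real.exp K) (div_pos hε (Real.exp_pos _))
  rwa [div_mul_cancel₀ _ (Real.exp_pos _).ne'] at h4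

end Vale.Agent.P262.Ehr
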