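import Vale.Agent.P262.H889.MaxP2

/-!
The functional `G`: monotone, `G (v + c) ≤ G v + c`; mollification; the functional Ehrhard
inequality on the line for all Lipschitz functions.
-/

open MeasureTheory ProbabilityTheory Set Filter Topology
open scoped Convolution NNReal

namespace Vale.Agent.P262.Ehr

section general

variable {α : Type*} [MeasurableSpace α] {μ : Measure α} [IsProbabilityMeasure μ]

theorem G_mono {u v : α → ℝ} (hu : AEStronglyMeasurable u μ) (hv : AEStronglyMeasurable v μ)
    (h : ∀ᵐ y ∂μ, u y ≤ v y) : G μ u ≤ G μ v := by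
  rw [G, G]
  refine Pi_le_Pi (int_Ph_pos hu) ?_ (int_Ph_lt_one hv)
  exact integral_mono_ae (Ph_integrable hu) (Ph_integrable hv)
    (h.mono fun y hy => Ph_strictMono.monotone hy)

theorem G_shift_hasDerivAt {v : α → ℝ} (hv : AEStronglyMeasurable v μ) (s : ℝ) :
    HasDerivAt (fun s => G μ (fun y => v y + s))
      ((ph (G μ (fun y => v y + s)))⁻¹ * ∫ y, ph (v y + s) ∂μ) s := by
  have hm : ∀ s : ℝ, AEStronglyMeasurable (fun y => v y + s) μ := fun s => hv.add_const s
  have h1 : HasDerivAt (fun s => ∫ y, Ph (v y + s) ∂μ) (∫ y, ph (v y + s) ∂μ) s := by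
    refine (hasDerivAt_integral_of_dominated_loc_of_deriv_le (bound := fun _ => 1)
      (F := fun s y => Ph (v y + s)) (F' := fun s y => ph (v y + s)) (s := univ) univ_mem (Eventually.of_forall fun t => (Ph_integrable (hm t)).1)
      (Ph_integrable (hm s)) (ph_integrable' (hm s)).1 ?_ (integrable_const _) ?_).2
    · refine Eventually.of_forall fun y t _ => ?_
      rw [Real.norm_eq_abs, abs_of_pos (ph_pos _)]; exact ph_le _
    · refine Eventually.of_forall fun y t _ => ?_
      have := (Ph_hasDerivAt (v y + t)).comp t ((hasDerivAt_id t).const_add (v y))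
      simpa [Function.comp_def] using this
  exact (Pi_hasDerivAt (int_Ph_pos (hm s)) (int_Ph_lt_one (hm s))).comp s h1

theorem G_add_const {v : α → ℝ} (hv : AEStronglyMeasurable v μ) {c : ℝ} (hc : 0 ≤ c) :
    G μ (fun y => v y + c) ≤ G μ v + c := by
  have hd : ∀ s, HasDerivAt (fun s => G μ (fun y => v y + s) - s)
      ((ph (G μ (fun y => v y + s)))⁻¹ * ∫ y, ph (v y + s) ∂μ - 1) s := fun s =>
    (G_shift_hasDerivAt hv s).sub (hasDerivAt_id s)
  have hanti : Antitone (fun s => G μ (fun y => v y + s) - s) := by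
    refine antitone_of_hasDerivAt_nonpos hd fun s => ?_
    have h1 := int_ph_le (hv.add_const s)
    have h2 := ph_pos (G μ (fun y => v y + s))
    rw [inv_mul_eq_div]
    have := (div_le_one h2).2 h1
    show _ - 1 ≤ (0 : ℝ)
    linarith
  have := hanti hc
  simp only [add_zero, sub_zero] at this
  linarith

theorem G_le_add {u v : α → ℝ} (hu : AEStronglyMeasurable u μ) (hv : AEStronglyMeasurable v μ)
    {c : ℝ} (hc : 0 ≤ c) (h : ∀ᵐ y ∂μ, u y ≤ v y + c) : G μ u ≤ G μ v + c :=
  (G_mono hu (hv.add_const c) h).trans (G_add_const hv hc)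

theorem G_const (c : ℝ) : G μ (fun _ => c) = c := by
  simp [G, Pi_Ph]

end general

/-- convolution with a kernel `f` -/
noncomputable def cv (f u : ℝ → ℝ) : ℝ → ℝ :=
  f ⋆[ContinuousLinearMap.lsmul ℝ ℝ, volume] u

theorem cv_apply (f u : ℝ → ℝ) (x : ℝ) : cv f u x = ∫ t, f t * u (x - t) := rfl

theorem cv_integrable {f u : ℝ → ℝ} (hf : Continuous f) (hcf : HasCompactSupport f)
    (hu : Continuous u) (x : ℝ) : Integrable (fun t => f t * u (x - t)) :=
  (hf.mul (hu.comp (by fun_prop))).integrable_of_hasCompactSupport hcf.mul_right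

theorem lip_real {u : ℝ → ℝ} {L : ℝ} (hu : ∀ x y, |u x - u y| ≤ L * |x - y|) : 0 ≤ L := by
  have := (abs_nonneg _).trans (hu 1 0)
  simpa using this

theorem lip_cont {u : ℝ → ℝ} {L : ℝ} (hu : ∀ x y, |u x - u y| ≤ L * |x - y|) : Continuous u := by
  have h : LipschitzWith (Real.toNNReal L) u := LipschitzWith.of_dist_le_mul fun x y => by
    rw [Real.dist_eq, Real.dist_eq, Real.coe_toNNReal _ (lip_real hu)]
    exact hu x y
  exact h.continuous

theorem cv_lip {f u : ℝ → ℝ} (hf : Continuous f) (hcf : HasCompactSupport f) {L : ℝ}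
    (hu : ∀ x y, |u x - u y| ≤ L * |x - y|) (x y : ℝ) :
    |cv f u x - cv f u y| ≤ (L * ∫ t, |f t|) * |x - y| := by
  have huc := lip_cont hu
  rw [cv_apply, cv_apply, ← integral_sub (cv_integrable hf hcf huc x) (cv_integrable hf hcf huc y)]
  have hfi : Integrable (fun t => |f t|) := (hf.integrable_of_hasCompactSupport hcf).abs
  calc |∫ t, f t * u (x - t) - f t * u (y - t)| ≤ ∫ t, |f t| * (L * |x - y|) := by
        rw [← Real.norm_eq_abs]
        refine norm_integral_le_of_norm_le (hfi.mul_const _) (Eventually.of_forall fun t => ?_)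
        rw [Real.norm_eq_abs, ← mul_sub, abs_mul]
        refine mul_le_mul_of_nonneg_left ?_ (abs_nonneg _)
        have := hu (x - t) (y - t)
        simpa using this
    _ = (L * ∫ t, |f t|) * |x - y| := by rw [integral_mul_const]; ring

theorem deriv_bound_of_lip {v : ℝ → ℝ} {v' x C : ℝ} (hC : ∀ x y, |v x - v y| ≤ C * |x - y|)
    (h : HasDerivAt v v' x) : |v'| ≤ C := by
  have hl : LipschitzWith (Real.toNNReal C) v := LipschitzWith.of_dist_le_mul fun x y => by
    rw [Real.dist_eq, Real.dist_eq, Real.coe_toNNReal _ (lip_real hC)]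
    exact hC x y
  have := h.le_of_lipschitz hl
  rwa [Real.norm_eq_abs, Real.coe_toNNReal _ (lip_real hC)] at this

theorem cv_hasDerivAt {f u : ℝ → ℝ} (hf : ContDiff ℝ 1 f) (hcf : HasCompactSupport f)
    (hu : Continuous u) (x : ℝ) : HasDerivAt (cv f u) (cv (deriv f) u x) x :=
  hcf.hasDerivAt_convolution_left _ hf hu.locallyIntegrable x

theorem cv_nice {f u : ℝ → ℝ} (hf : ContDiff ℝ 2 f) (hcf : HasCompactSupport f)
    (hf0 : ∀ x, 0 ≤ f x) (hf1 : ∫ x, f x = 1) {L : ℝ}
    (hu : ∀ x y, |u x - u y| ≤ L * |x - y|) :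
    Nice (cv f u) (cv (deriv f) u) (cv (deriv (deriv f)) u) L (L * ∫ t, |deriv f t|) := by
  have huc := lip_cont hu
  have hf1' : ContDiff ℝ 1 (deriv f) := hf.iterate_deriv' 1 1
  have hd : ∀ x, HasDerivAt (cv f u) (cv (deriv f) u x) x :=
    cv_hasDerivAt (hf.of_le (by norm_num)) hcf huc
  have hd2 : ∀ x, HasDerivAt (cv (deriv f) u) (cv (deriv (deriv f)) u x) x :=
    cv_hasDerivAt hf1' hcf.deriv huc
  refine ⟨hd, hd2, ?_, fun x => ?_, fun x => ?_⟩
  · exact hcf.deriv.deriv.continuous_convolution_left _ (hf1'.continuous_deriv le_rfl)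
      huc.locallyIntegrable
  · refine deriv_bound_of_lip (fun x y => ?_) (hd x)
    have := cv_lip hf.continuous hcf hu x y
    simp only [abs_of_nonneg (hf0 _), hf1, mul_one] at this
    exact this
  · exact deriv_bound_of_lip (fun x y => cv_lip hf1'.continuous hcf.deriv hu x y) (hd2 x)

theorem cv_close {f u : ℝ → ℝ} (hf : Continuous f) (hcf : HasCompactSupport f)
    (hf0 : ∀ x, 0 ≤ f x) (hf1 : ∫ x, f x = 1) {L r : ℝ}
    (hu : ∀ x y, |u x - u y| ≤ L * |x - y|) (hr : ∀ t, f t ≠ 0 → |t| ≤ r) (x : ℝ) :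
    |cv f u x - u x| ≤ L * r := by
  have huc := lip_cont hu
  have hL := lip_real hu
  have hfi : Integrable f := hf.integrable_of_hasCompactSupport hcf
  have e : u x = ∫ t, f t * u x := by rw [integral_mul_const, hf1, one_mul]
  calc |cv f u x - u x| = |∫ t, (f t * u (x - t) - f t * u x)| := by
        rw [integral_sub (cv_integrable hf hcf huc x) (hfi.mul_const _), ← e, cv_apply]
    _ ≤ ∫ t, f t * (L * r) := by
        rw [← Real.norm_eq_abs]
        refine norm_integral_le_of_norm_le (hfi.mul_const _) (Eventually.of_forall fun t => ?_)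
        rw [Real.norm_eq_abs, ← mul_sub, abs_mul, abs_of_nonneg (hf0 t)]
        by_cases ht : f t = 0
        · simp [ht]
        refine mul_le_mul_of_nonneg_left ?_ (hf0 t)
        have h1 := hu (x - t) x
        have h2 : x - t - x = -t := by ring
        rw [h2, abs_neg] at h1
        exact h1.trans (mul_le_mul_of_nonneg_left (hr t ht) hL)
    _ = L * r := by rw [integral_mul_const, hf1, one_mul]

theorem Nice.mono {u u1 u2 : ℝ → ℝ} {L L' M M' : ℝ} (h : Nice u u1 u2 L M) (hL : L ≤ L')
    (hM : M ≤ M') : Nice u u1 u2 L' M' :=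
  ⟨h.d1, h.d2, h.c2, fun x => (h.b1 x).trans hL, fun x => (h.b2 x).trans hM⟩

/-- functional Ehrhard inequality on the line for Lipschitz functions -/
theorem ehrhard_lip {u0 u1 um : ℝ → ℝ} {L l : ℝ} (h0 : ∀ x y, |u0 x - u0 y| ≤ L * |x - y|)
    (h1 : ∀ x y, |u1 x - u1 y| ≤ L * |x - y|) (hm : ∀ x y, |um x - um y| ≤ L * |x - y|)
    (hl0 : 0 ≤ l) (hl1 : l ≤ 1)
    (hyp : ∀ x y, (1 - l) * u0 x + l * u1 y ≤ um ((1 - l) * x + l * y)) :
    (1 - l) * G gam u0 + l * G gam u1 ≤ G gam um := by
  have hL := lip_real h0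
  have hc0 := lip_cont h0
  have hc1 := lip_cont h1
  have hcm := lip_cont hm
  have hl1' : 0 ≤ 1 - l := by linarith
  have key : ∀ r : ℝ, 0 < r → (1 - l) * G gam u0 + l * G gam u1 ≤ G gam um + 2 * (L * r) := by
    intro r hr
    let φ : ContDiffBump (0 : ℝ) := ⟨r / 2, r, by positivity, by linarith⟩
    set f : ℝ → ℝ := φ.normed volume with hf
    have hfc : ContDiff ℝ 2 f := φ.contDiff_normed
    have hcf : HasCompactSupport f := φ.hasCompactSupport_normed
    have hf0 : ∀ x, 0 ≤ f x := φ.nonneg_normed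
    have hf1 : ∫ x, f x = 1 := φ.integral_normed
    have hsup : ∀ t, f t ≠ 0 → |t| ≤ r := by
      intro t ht
      have h2 : t ∈ Function.support f := ht
      rw [hf, φ.support_normed_eq, Metric.mem_ball, Real.dist_eq, sub_zero] at h2
      exact h2.le
    have n0 := cv_nice hfc hcf hf0 hf1 h0
    have n1 := cv_nice hfc hcf hf0 hf1 h1
    have nm := cv_nice hfc hcf hf0 hf1 hm
    have hyp' : ∀ x y, (1 - l) * cv f u0 x + l * cv f u1 y ≤ cv f um ((1 - l) * x + l * y) := by
      intro x y
      have i0 := cv_integrable hfc.continuous hcf hc0 x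
      have i1 := cv_integrable hfc.continuous hcf hc1 y
      have im := cv_integrable hfc.continuous hcf hcm ((1 - l) * x + l * y)
      rw [cv_apply, cv_apply, cv_apply, ← integral_const_mul, ← integral_const_mul,
        ← integral_add (i0.const_mul _) (i1.const_mul _)]
      refine integral_mono ((i0.const_mul _).add (i1.const_mul _)) im fun t => ?_
      have h2 := mul_le_mul_of_nonneg_left (hyp (x - t) (y - t)) (hf0 t)
      have e : (1 - l) * (x - t) + l * (y - t) = (1 - l) * x + l * y - t := by ring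
      rw [e] at h2
      show (1 - l) * (f t * u0 (x - t)) + l * (f t * u1 (y - t)) ≤ _
      linarith
    have main := ehrhard_nice nm n0 n1 hl0 hl1 hyp'
    have hLr : 0 ≤ L * r := by positivity
    have c0 := cv_close hfc.continuous hcf hf0 hf1 h0 hsup
    have c1 := cv_close hfc.continuous hcf hf0 hf1 h1 hsup
    have cm := cv_close hfc.continuous hcf hf0 hf1 hm hsup
    have g0 : G gam u0 ≤ G gam (cv f u0) + L * r :=
      G_le_add hc0.aestronglyMeasurable n0.cont.aestronglyMeasurable hLr
        (Eventually.of_forall fun y => by have := abs_le.1 (c0 y); linarith [this.1])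
    have g1 : G gam u1 ≤ G gam (cv f u1) + L * r :=
      G_le_add hc1.aestronglyMeasurable n1.cont.aestronglyMeasurable hLr
        (Eventually.of_forall fun y => by have := abs_le.1 (c1 y); linarith [this.1])
    have gm : G gam (cv f um) ≤ G gam um + L * r :=
      G_le_add nm.cont.aestronglyMeasurable hcm.aestronglyMeasurable hLr
        (Eventually.of_forall fun y => by have := abs_le.1 (cm y); linarith [this.2])
    have g0' := mul_le_mul_of_nonneg_left g0 hl1'
    have g1' := mul_le_mul_of_nonneg_left g1 hl0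
    linarith
  refine le_of_forall_pos_le_add fun ε hε => ?_
  have hL1 : 0 < 2 * (L + 1) := by linarith
  have h4 := key (ε / (2 * (L + 1))) (div_pos hε hL1)
  have h5 : 2 * (L * (ε / (2 * (L + 1)))) ≤ ε := by
    have e : 2 * (L * (ε / (2 * (L + 1)))) = ε * (L / (L + 1)) := by field_simp
    rw [e]
    have : L / (L + 1) ≤ 1 := (div_le_one (by linarith)).2 (by linarith)
    calc ε * (L / (L + 1)) ≤ ε * 1 := mul_le_mul_of_nonneg_left this hε.le
      _ = ε := mul_one ε
  linarith

end Vale.Agent.P262.Ehr
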