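import Mathlib

/-!
Gaussian distribution function `Ph`, density `ph`, inverse `Pi`, and the tangent inequality
`ph a + b * (Ph a - Ph b) <= ph b`.
-/

open MeasureTheory ProbabilityTheory Set Filter Topology

namespace Vale.Agent.P262.Ehr

/-- standard Gaussian measure on the line -/
noncomputable abbrev gam : Measure ℝ := gaussianReal 0 1

/-- standard Gaussian density -/
noncomputable def ph (x : ℝ) : ℝ := (Real.sqrt (2 * Real.pi))⁻¹ * Real.exp (-(x ^ 2) / 2)

/-- standard Gaussian distribution function -/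
noncomputable def Ph (x : ℝ) : ℝ := gam.real (Iic x)

theorem ph_eq (x : ℝ) : ph x = gaussianPDFReal 0 1 x := by
  simp [ph, gaussianPDFReal]

theorem ph_pos (x : ℝ) : 0 < ph x := by
  unfold ph; positivity

theorem ph_integrable : Integrable ph := by
  have : ph = gaussianPDFReal 0 1 := funext ph_eq
  rw [this]; exact integrable_gaussianPDFReal 0 1

theorem ph_continuous : Continuous ph := by
  unfold ph; fun_prop

theorem ph_integral : ∫ x, ph x = 1 := by
  have : ph = gaussianPDFReal 0 1 := funext ph_eq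
  rw [this]; exact integral_gaussianPDFReal_eq_one 0 one_ne_zero

theorem Ph_eq (x : ℝ) : Ph x = ∫ t in Iic x, ph t := by
  have h1 : (0 : ℝ) ≤ ∫ t in Iic x, gaussianPDFReal 0 1 t :=
    setIntegral_nonneg measurableSet_Iic fun t _ => gaussianPDFReal_nonneg 0 1 t
  rw [Ph, measureReal_def, gaussianReal_apply_eq_integral 0 one_ne_zero, ENNReal.toReal_ofReal h1]
  simp_rw [ph_eq]

theorem Ph_sub (x y : ℝ) : Ph y - Ph x = ∫ t in x..y, ph t := by
  rw [Ph_eq, Ph_eq]
  exact intervalIntegral.integral_Iic_sub_Iic ph_integrable.integrableOn ph_integrable.integrableOn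

theorem Ph_hasDerivAt (x : ℝ) : HasDerivAt Ph (ph x) x := by
  have h : Ph = fun y => Ph 0 + ∫ t in (0 : ℝ)..y, ph t := by
    funext y; rw [← Ph_sub]; ring
  rw [h]
  have := intervalIntegral.integral_hasDerivAt_right (a := 0) (b := x)
    (ph_continuous.intervalIntegrable 0 x) (ph_continuous.stronglyMeasurableAtFilter _ _)
    ph_continuous.continuousAt
  simpa using this.const_add (Ph 0)

theorem Ph_continuous : Continuous Ph :=
  continuous_iff_continuousAt.2 fun x => (Ph_hasDerivAt x).continuousAt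

theorem Ph_strictMono : StrictMono Ph :=
  strictMono_of_hasDerivAt_pos (fun x => Ph_hasDerivAt x) fun x => ph_pos x

theorem Ph_tendsto_atBot : Tendsto Ph atBot (𝓝 0) := by
  have h := tendsto_cdf_atBot gam
  refine h.congr fun x => ?_
  rw [cdf_eq_real]; rfl

theorem Ph_tendsto_atTop : Tendsto Ph atTop (𝓝 1) := by
  have h := tendsto_cdf_atTop gam
  refine h.congr fun x => ?_
  rw [cdf_eq_real]; rfl

theorem Ph_pos (x : ℝ) : 0 < Ph x := by
  have h : 0 ≤ Ph (x - 1) := measureReal_nonneg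
  exact h.trans_lt (Ph_strictMono (by linarith))

theorem Ph_lt_one (x : ℝ) : Ph x < 1 := by
  have h : Ph (x + 1) ≤ 1 := measureReal_le_one
  exact (Ph_strictMono (by linarith)).trans_le h

theorem Ph_surj {p : ℝ} (h0 : 0 < p) (h1 : p < 1) : ∃ x, Ph x = p := by
  obtain ⟨a, ha⟩ := (Ph_tendsto_atBot.eventually (gt_mem_nhds h0)).exists
  obtain ⟨b, hb⟩ := (Ph_tendsto_atTop.eventually (lt_mem_nhds h1)).exists
  exact mem_range_of_exists_le_of_exists_ge Ph_continuous ⟨a, ha.le⟩ ⟨b, hb.le⟩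

/-- the inverse of `Ph` on `(0,1)` -/
noncomputable def Pi (p : ℝ) : ℝ := Function.invFun Ph p

theorem Pi_Ph (x : ℝ) : Pi (Ph x) = x :=
  Function.leftInverse_invFun Ph_strictMono.injective x

theorem Ph_Pi {p : ℝ} (h0 : 0 < p) (h1 : p < 1) : Ph (Pi p) = p :=
  Function.invFun_eq (Ph_surj h0 h1)

theorem Pi_lt_Pi {p q : ℝ} (h0 : 0 < p) (hpq : p < q) (h1 : q < 1) : Pi p < Pi q := by
  have := Ph_Pi h0 (hpq.trans h1)
  have h2 := Ph_Pi (h0.trans hpq) h1
  rw [← Ph_strictMono.lt_iff_lt, this, h2]; exact hpq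

theorem Pi_le_Pi {p q : ℝ} (h0 : 0 < p) (hpq : p ≤ q) (h1 : q < 1) : Pi p ≤ Pi q := by
  rcases hpq.eq_or_lt with rfl | h
  · exact le_rfl
  · exact (Pi_lt_Pi h0 h h1).le

theorem le_Pi_iff {x p : ℝ} (h0 : 0 < p) (h1 : p < 1) : x ≤ Pi p ↔ Ph x ≤ p := by
  rw [← Ph_strictMono.le_iff_le, Ph_Pi h0 h1]

theorem Pi_le_iff {x p : ℝ} (h0 : 0 < p) (h1 : p < 1) : Pi p ≤ x ↔ p ≤ Ph x := by
  rw [← Ph_strictMono.le_iff_le, Ph_Pi h0 h1]

theorem Pi_continuousAt {p : ℝ} (h0 : 0 < p) (h1 : p < 1) : ContinuousAt Pi p := by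
  rw [ContinuousAt, tendsto_order]
  constructor
  · intro a ha
    have h2 : Ph a < p := by
      rw [← Ph_Pi h0 h1]; exact Ph_strictMono ha
    filter_upwards [lt_mem_nhds h2, lt_mem_nhds h0, gt_mem_nhds h1] with q hq hq0 hq1
    rw [← Pi_Ph a]
    exact Pi_lt_Pi (Ph_pos a) hq hq1
  · intro b hb
    have h2 : p < Ph b := by
      rw [← Ph_Pi h0 h1]; exact Ph_strictMono hb
    filter_upwards [gt_mem_nhds h2, lt_mem_nhds h0, gt_mem_nhds h1] with q hq hq0 hq1
    rw [← Pi_Ph b]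
    exact Pi_lt_Pi hq0 hq (Ph_lt_one b)

theorem Pi_hasDerivAt {p : ℝ} (h0 : 0 < p) (h1 : p < 1) :
    HasDerivAt Pi (ph (Pi p))⁻¹ p := by
  refine HasDerivAt.of_local_left_inverse (Pi_continuousAt h0 h1) (Ph_hasDerivAt (Pi p))
    (ph_pos _).ne' ?_
  filter_upwards [lt_mem_nhds h0, gt_mem_nhds h1] with q hq0 hq1
  exact Ph_Pi hq0 hq1

theorem ph_hasDerivAt (x : ℝ) : HasDerivAt ph (-(x * ph x)) x := by
  unfold ph
  have h1 : HasDerivAt (fun x : ℝ => -(x ^ 2) / 2) (-x) x := by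
    have := (hasDerivAt_pow 2 x).neg.div_const 2
    refine this.congr_deriv ?_
    norm_num
    ring
  have h2 := (h1.exp).const_mul (Real.sqrt (2 * Real.pi))⁻¹
  refine h2.congr_deriv ?_
  ring

/-- tangent inequality for the Gaussian isoperimetric profile -/
theorem tangent (a b : ℝ) : ph a + b * (Ph a - Ph b) ≤ ph b := by
  set h : ℝ → ℝ := fun a => ph b - b * (Ph a - Ph b) - ph a with hh
  have hd : ∀ x, HasDerivAt h ((x - b) * ph x) x := by
    intro x
    have h1 := (((Ph_hasDerivAt x).sub_const (Ph b)).const_mul b)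
    have h2 := ((hasDerivAt_const x (ph b)).sub h1).sub (ph_hasDerivAt x)
    refine h2.congr_deriv ?_
    ring
  have hb : h b = 0 := by simp [hh]
  have key : 0 ≤ h a := by
    rcases lt_trichotomy a b with hab | hab | hab
    · obtain ⟨c, hc, hc2⟩ := exists_hasDerivAt_eq_slope h (fun x => (x - b) * ph x) hab
        (fun x _ => (hd x).continuousAt.continuousWithinAt) (fun x _ => hd x)
      have h3 : (c - b) * ph c ≤ 0 := mul_nonpos_of_nonpos_of_nonneg (by linarith [hc.2]) (ph_pos c).le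
      rw [hc2, hb, zero_sub, div_nonpos_iff] at h3
      rcases h3 with h3 | h3
      · linarith [h3.2]
      · linarith [h3.1]
    · rw [hab, hb]
    · obtain ⟨c, hc, hc2⟩ := exists_hasDerivAt_eq_slope h (fun x => (x - b) * ph x) hab
        (fun x _ => (hd x).continuousAt.continuousWithinAt) (fun x _ => hd x)
      have h3 : 0 ≤ (c - b) * ph c := mul_nonneg (by linarith [hc.1]) (ph_pos c).le
      rw [hc2, hb, sub_zero, div_nonneg_iff] at h3
      rcases h3 with h3 | h3
      · exact h3.1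
      · linarith [h3.2]
  simp only [hh] at key
  linarith

theorem ph_le (x : ℝ) : ph x ≤ 1 := by
  unfold ph
  have h1 : (1 : ℝ) ≤ Real.sqrt (2 * Real.pi) := by
    rw [Real.one_le_sqrt]; nlinarith [Real.pi_gt_three]
  have h2 : (Real.sqrt (2 * Real.pi))⁻¹ ≤ 1 := inv_le_one_of_one_le₀ h1
  have h3 : Real.exp (-(x ^ 2) / 2) ≤ 1 := by
    rw [Real.exp_le_one_iff]; nlinarith [sq_nonneg x]
  calc _ ≤ 1 * 1 := mul_le_mul h2 h3 (Real.exp_nonneg _) zero_le_one
    _ = 1 := one_mul 1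

theorem abs_mul_ph_le (x : ℝ) : |x| * ph x ≤ 1 := by
  have h1 : |x| ≤ Real.exp (x ^ 2 / 2) := by
    have h := Real.add_one_le_exp (x ^ 2 / 2)
    nlinarith [sq_nonneg (|x| - 1), sq_abs x, abs_nonneg x]
  unfold ph
  have h2 : (Real.sqrt (2 * Real.pi))⁻¹ ≤ 1 := by
    apply inv_le_one_of_one_le₀
    rw [Real.one_le_sqrt]; nlinarith [Real.pi_gt_three]
  calc |x| * ((Real.sqrt (2 * Real.pi))⁻¹ * Real.exp (-(x ^ 2) / 2))
      ≤ Real.exp (x ^ 2 / 2) * (1 * Real.exp (-(x ^ 2) / 2)) := by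
        apply mul_le_mul h1 _ (by positivity) (by positivity)
        exact mul_le_mul_of_nonneg_right h2 (Real.exp_nonneg _)
    _ = 1 := by
        rw [one_mul, ← Real.exp_add]; simp [neg_div]

end Vale.Agent.P262.Ehr
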